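import Vale.Agent.P146.H66.M4b
import Vale.Agent.P146.H93.TlSK

/-!
# P146 (helper66): the fourth moment of the overlap of the SK system with `K` levels

`skS n K m b w` (helper93): for two replicas which split at a level `l < K`,
`E R⁴ ≤ 540 (A / q)² + 2 / n²`, `q = κ m_1 m_K (n (n - 1) / 2) b_K²`, where
`A ≥ max(1, m_1 (fe(last exponent times 1 + κ) - fe))`.
-/

open MeasureTheory ProbabilityTheory

namespace Vale.Agent.P146.H66

open Vale.Agent.P157 Vale.Agent.P157.Lv Vale.Agent.P157.Lv.Sy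
open Vale.Agent.P146.H784 Vale.Agent.P146.H425 Vale.Agent.P146.H785
open Vale.Agent.P146.H325 Vale.Agent.P146.H93

set_option linter.unusedSectionVars false
set_option linter.unusedVariables false

variable {n K : ℕ} {m b w : ℕ → ℝ} {κ : ℝ}

/-- the number of bonds -/
abbrev nP (n : ℕ) : ℕ := Fintype.card (Pair n)

/-- the pair spins -/
noncomputable def ps (n : ℕ) (x : Fin n → ℤˣ) (i : Fin (nP n)) : ℝ :=
  SkS ((Fintype.equivFin (Pair n)).symm i) x

/-- the coordinates of the bonds of the last level -/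
noncomputable def zb (hK : 1 ≤ K) (i : Fin (nP n)) : Cd n K :=
  (Sum.inl ((Fintype.equivFin (Pair n)).symm i), ⟨K - 1, by omega⟩)

lemma ps_sq (x : Fin n → ℤˣ) (i : Fin (nP n)) : ps n x i ^ 2 = 1 := by
  unfold ps SkS
  rw [mul_pow, sp_sq, sp_sq, mul_one]

/-- sums over all pairs of sites -/
lemma sum_pairs' (G : Fin n → Fin n → ℝ) (hG : ∀ p q, G p q = G q p) (h0 : ∀ p, G p p = 0) :
    ∑ p, ∑ q, G p q = 2 * ∑ e : Pair n, G e.1.1 e.1.2 := by
  rw [← sum_rows fun e => G e.1.1 e.1.2]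
  refine Finset.sum_congr rfl fun b _ => ?_
  rw [← sum_row_all b (G := G b) (h0 b)]
  refine Finset.sum_congr rfl fun e he => ?_
  rw [mem_row] at he
  unfold oth
  split_ifs with h1
  · rw [h1]
  · rw [hG b, he.resolve_left h1]

/-- the overlap of the pair spins -/
lemma sum_ps (x x' : Fin n → ℤˣ) :
    ∑ i, ps n x i * ps n x' i = ((∑ i, sp x i * sp x' i) ^ 2 - n) / 2 := by
  have h1 : ∑ i, ps n x i * ps n x' i = ∑ e : Pair n, SkS e x * SkS e x' := by
    unfold ps
    exact (Equiv.sum_comp (Fintype.equivFin (Pair n)).symm fun e => SkS e x * SkS e x')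
  obtain ⟨G, hG⟩ : ∃ G : Fin n → Fin n → ℝ, G = fun p q =>
      if p = q then 0 else (sp x p * sp x' p) * (sp x q * sp x' q) := ⟨_, rfl⟩
  have h2 := sum_pairs' G (by
    intro p q
    rw [hG]
    by_cases h : p = q
    · simp [h]
    · simp only [if_neg h, if_neg (Ne.symm h)]
      ring) (by
    intro p
    rw [hG]
    simp)
  have h3 : ∑ e : Pair n, G e.1.1 e.1.2 = ∑ e : Pair n, SkS e x * SkS e x' := by
    refine Finset.sum_congr rfl fun e _ => ?_
    rw [hG]
    simp only [if_neg e.2.ne]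
    unfold SkS
    ring
  have h4 : ∑ p, ∑ q, G p q = (∑ i, sp x i * sp x' i) ^ 2 - n := by
    have h5 : ∀ p q, G p q = (sp x p * sp x' p) * (sp x q * sp x' q) -
        if p = q then 1 else 0 := by
      intro p q
      rw [hG]
      by_cases h : p = q
      · subst h
        simp only [if_true]
        have a1 := sp_mul_self x p
        have a2 := sp_mul_self x' p
        have : sp x p * sp x' p * (sp x p * sp x' p) = (sp x p * sp x p) * (sp x' p * sp x' p) := by
          ring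
        rw [this, a1, a2]
        ring
      · simp only [if_neg h]
        ring
    simp_rw [h5, Finset.sum_sub_distrib]
    rw [sq, Finset.sum_mul_sum]
    simp
  rw [h1, ← h3]
  linarith

lemma nP_eq (n : ℕ) : (nP n : ℝ) = n * (n - 1) / 2 := by
  have h := sum_ps (n := n) (fun _ => 1) (fun _ => 1)
  have e1 : ∀ i, ps n (fun _ => 1) i * ps n (fun _ => 1) i = 1 := fun i => by
    rw [← sq]; exact ps_sq _ _
  have e2 : ∀ i : Fin n, sp (fun _ : Fin n => (1 : ℤˣ)) i * sp (fun _ => 1) i = 1 := fun i =>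
    sp_mul_self _ _
  simp only [e1, e2, Finset.sum_const, Finset.card_univ, Fintype.card_fin, nsmul_eq_mul,
    mul_one] at h
  rw [h]
  ring

/-- `R⁴ ≤ 2 (Rov ps)² + 2 / n²` -/
lemma pow_four_le (hn : 2 ≤ n) (x x' : Fin n → ℤˣ) :
    Rov (fun x i => sp x i) x x' ^ 4 ≤ 2 * Rov (ps n) x x' ^ 2 + 2 / (n : ℝ) ^ 2 := by
  have hn' : (2 : ℝ) ≤ n := by exact_mod_cast hn
  obtain ⟨s, hs⟩ : ∃ s, s = ∑ i, sp x i * sp x' i := ⟨_, rfl⟩
  have h1 : Rov (fun x i => sp x i) x x' = 1 / n * s := by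
    rw [hs]
    rfl
  have h2 : Rov (ps n) x x' = 1 / (nP n : ℝ) * ((s ^ 2 - n) / 2) := by
    unfold Rov
    rw [sum_ps, hs]
  obtain ⟨u, hu⟩ : ∃ u, u = 1 / (nP n : ℝ) * ((s ^ 2 - n) / 2) := ⟨_, rfl⟩
  have h3 : (1 / (n : ℝ) * s) ^ 2 = (n - 1) / n * u + 1 / n := by
    rw [hu, nP_eq]
    have : (n : ℝ) - 1 ≠ 0 := by linarith
    field_simp
    ring
  rw [h1, h2, ← hu]
  have h4 : (1 / (n : ℝ) * s) ^ 4 = ((n - 1) / n * u + 1 / n) ^ 2 := by
    rw [← h3]; ring
  rw [h4]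
  have h5 : ((n - 1) / (n : ℝ) * u + 1 / n) ^ 2 ≤
      2 * ((n - 1) / (n : ℝ) * u) ^ 2 + 2 * (1 / (n : ℝ)) ^ 2 := by
    nlinarith [sq_nonneg ((n - 1) / (n : ℝ) * u - 1 / n)]
  have h6 : ((n - 1) / (n : ℝ) * u) ^ 2 ≤ u ^ 2 := by
    rw [mul_pow]
    have h7 : ((n - 1) / (n : ℝ)) ^ 2 ≤ 1 := by
      rw [sq_le_one_iff_abs_le_one, abs_of_nonneg (by
        apply div_nonneg <;> linarith)]
      rw [div_le_one (by linarith)]
      linarith
    nlinarith [sq_nonneg u]
  have h8 : 2 * (1 / (n : ℝ)) ^ 2 = 2 / (n : ℝ) ^ 2 := by ring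
  linarith

/-- the bonds of the last level -/
lemma lst_sk (hn : 2 ≤ n) (hK : 1 ≤ K) (hb : 0 < b K) :
    Lst (skS n K m b w) (aSK n K b w) (ps n) (zb hK) (b K) where
  N0 := by
    have h := nP_eq n
    have hn' : (2 : ℝ) ≤ n := by exact_mod_cast hn
    have h2 : (0 : ℝ) < nP n := by rw [h]; nlinarith
    exact_mod_cast h2
  s0 := hb
  norm := by
    intro x
    simp only [ps_sq, Finset.sum_const, Finset.card_univ, Fintype.card_fin, nsmul_eq_mul, mul_one]
  inj := by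
    intro i j hij
    unfold zb at hij
    simp only [Prod.mk.injEq, Sum.inl.injEq, and_true] at hij
    exact (Fintype.equivFin (Pair n)).symm.injective hij
  lev := by
    intro i
    show K - 1 + 1 = K
    omega
  a := by
    intro i x
    show am b w (Sum.inl ((Fintype.equivFin (Pair n)).symm i)) (K - 1 + 1) * _ = b K * ps n x i
    rw [show K - 1 + 1 = K by omega]
    rfl

/-- **The fourth moment of the overlap, SK system.** -/
theorem sk_four (hn : 2 ≤ n) (hK : 1 ≤ K) (hm : Em K m) (hb : 0 < b K) (hκ : 0 < κ) (hκ1 : κ ≤ 1)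
    (h2 : (1 + κ) * m K ≤ 1) {A : ℝ} (hA1 : 1 ≤ A)
    (hA : ∀ z, m 1 * ((wm (skS n K m b w) (dm (skS n K m b w) κ)).lg 0 z -
      (skS n K m b w).lg 0 z) ≤ A) {l : ℕ} (hl : l < K) :
    (skS n K m b w).pairEx l (fun x x' => Rov (fun x i => sp x i) x x' ^ 4) ≤
      540 * (A / (κ * (m 1 * m K * (nP n * b K ^ 2)))) ^ 2 + 2 / (n : ℝ) ^ 2 := by
  have hlin := linS_sk hm b w (n := n)
  have hS := hlin.reg
  have hL := lst_sk (m := m) (w := w) hn hK hb
  have h1 := pair_sq_le (κ := κ) hlin hK hκ hκ1 h2 hL hA1 hA (show l < K from hl)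
  have h4 : (skS n K m b w).pairEx l (fun x x' => Rov (fun x i => sp x i) x x' ^ 4) ≤
      (skS n K m b w).pairEx l (fun x x' => 2 * Rov (ps n) x x' ^ 2 + 2 / (n : ℝ) ^ 2) :=
    hS.pairEx_mono (show l ≤ K by omega) fun x x' => pow_four_le hn x x'
  rw [hS.pairEx_add (show l ≤ K by omega), hS.pairEx_const_mul, hS.pairEx_const
    (show l ≤ K by omega)] at h4
  have h5 : (skS n K m b w).m 1 = m 1 := rfl
  have h6 : (skS n K m b w).m (skS n K m b w).K = m K := rfl
  rw [h5, h6] at h1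
  linarith

/-- the last exponent multiplied by `1 + κ` -/
noncomputable def up (K : ℕ) (κ : ℝ) (m : ℕ → ℝ) (j : ℕ) : ℝ :=
  if j = K then (1 + κ) * m K else m j

lemma em_up (hK : 1 ≤ K) (hm : Em K m) (hκ : 0 ≤ κ) (h2 : (1 + κ) * m K ≤ 1) :
    Em K (up K κ m) := by
  have h := dm_reg (linS_sk (n := 2) hm (fun _ => 0) (fun _ => 0)).reg
    (show 1 ≤ (skS 2 K m (fun _ => 0) (fun _ => 0)).K from hK) hκ h2
  exact ⟨h.m0, h.mK, h.mono, h.pos⟩

/-- there is no coordinate of the level `0` -/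
lemma lg0_eq_fe (hm : Em K m) (b w : ℕ → ℝ) (z : Cd n K → ℝ) :
    (skS n K m b w).lg 0 z = (skS n K m b w).fe := by
  have hS := (linS_sk hm b w (n := n)).reg
  have h1 : ∀ y, (skS n K m b w).lg 0 y = (skS n K m b w).lg 0 z := by
    intro y
    have h2 := hS.dep_lg (l := 0) (Nat.zero_le _) z y
    have h3 : mix (skS n K m b w).lev 0 z y = y := by
      funext e
      show (if (e.2 : ℕ) + 1 ≤ 0 then z e else y e) = y e
      rw [if_neg (by omega)]
    rw [h3] at h2
    exact h2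
  unfold Sy.fe
  simp only [h1, integral_const, probReal_univ, one_smul]

/-- `m_1 (fe' - fe)` in the letters of the free energies -/
lemma incr_sk (hK : 1 ≤ K) (hm : Em K m) (hκ : 0 ≤ κ) (h2 : (1 + κ) * m K ≤ 1) (b w : ℕ → ℝ)
    {A : ℝ} (hA : m 1 * ((skS n K (up K κ m) b w).fe - (skS n K m b w).fe) ≤ A)
    (z : Cd n K → ℝ) :
    m 1 * ((wm (skS n K m b w) (dm (skS n K m b w) κ)).lg 0 z - (skS n K m b w).lg 0 z) ≤ A := by
  have e1 : (wm (skS n K m b w) (dm (skS n K m b w) κ)).lg 0 z =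
      (skS n K (up K κ m) b w).lg 0 z := rfl
  rw [e1, lg0_eq_fe (em_up hK hm hκ h2), lg0_eq_fe hm]
  exact hA

/-- the free energy is nondecreasing in the exponents -/
theorem fe_mono_m {m' : ℕ → ℝ} (hm : Em K m) (hm' : Em K m')
    (h : ∀ j, 1 ≤ j → j ≤ K → m j ≤ m' j) (b w : ℕ → ℝ) :
    (skS n K m b w).fe ≤ (skS n K m' b w).fe := by
  have h1 := lg_mono_m (S := skS n K m b w) (m' := m') (linS_sk hm b w).reg
    (linS_sk hm' b w).reg h 0 (Nat.zero_le _) 0
  rw [lg0_eq_fe hm] at h1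
  have h2 : (wm (skS n K m b w) m').lg 0 0 = (skS n K m' b w).lg 0 0 := rfl
  rw [h2, lg0_eq_fe hm'] at h1
  exact h1

/-- constant exponents -/
noncomputable def cm (K : ℕ) (c : ℝ) (j : ℕ) : ℝ := if j = 0 then 0 else if j ≤ K then c else 1

lemma em_cm (hK : 1 ≤ K) {c : ℝ} (hc : 0 < c) (hc1 : c ≤ 1) : Em K (cm K c) where
  m0 := by simp [cm]
  mK := by simp [cm]
  mono := by
    intro l hl
    unfold cm
    by_cases h0 : l = 0
    · rw [if_pos h0, if_neg (by omega)]
      split_ifs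
      · exact hc.le
      · norm_num
    · rw [if_neg h0, if_pos hl, if_neg (by omega)]
      split_ifs
      · exact le_rfl
      · exact hc1
  pos := by
    unfold cm
    rw [if_neg (by omega), if_pos hK]
    exact hc

/-- the increment is at most the increment of the pure laws -/
theorem incr_le_pure (hK : 1 ≤ K) (hm : Em K m) (hκ : 0 ≤ κ) (h2 : (1 + κ) * m K ≤ 1)
    (b w : ℕ → ℝ) {y u A : ℝ} (hy : 0 < y) (hy1 : y ≤ m 1) (hu : (1 + κ) * m K ≤ u) (hu1 : u ≤ 1)
    (hA : m 1 * ((skS n K (cm K u) b w).fe - (skS n K (cm K y) b w).fe) ≤ A) :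
    m 1 * ((skS n K (up K κ m) b w).fe - (skS n K m b w).fe) ≤ A := by
  have hS := (linS_sk hm b w (n := n)).reg
  have hmK : ∀ j, 1 ≤ j → j ≤ K → m j ≤ m K := fun j _ hj => hS.m_mono hj (Nat.le_succ _)
  have hm1 : ∀ j, 1 ≤ j → j ≤ K → m 1 ≤ m j := fun j hj hj' =>
    hS.m_mono hj (show j ≤ K + 1 by omega)
  have hp : 0 < m 1 := hm.pos
  have hpK : 0 < m K := hp.trans_le (hmK 1 le_rfl hK)
  have hK2 : m K ≤ (1 + κ) * m K := by nlinarith
  have hy1' : y ≤ 1 := by
    have := hmK 1 le_rfl hK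
    linarith
  have h3 := fe_mono_m (n := n) (em_up hK hm hκ h2)
    (em_cm hK (by linarith : 0 < u) hu1) (by
      intro j hj hj'
      unfold up cm
      rw [if_neg (by omega : ¬ j = 0), if_pos hj']
      split_ifs
      · exact hu
      · exact (hmK j hj hj').trans (hK2.trans hu)) b w
  have h4 := fe_mono_m (n := n) (em_cm hK hy hy1') hm (by
      intro j hj hj'
      unfold cm
      rw [if_neg (by omega : ¬ j = 0), if_pos hj']
      exact hy1.trans (hm1 j hj hj')) b w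
  refine le_trans ?_ hA
  exact mul_le_mul_of_nonneg_left (by linarith) hp.le

/-- **The fourth moment of the overlap, SK system**, in the letters of the free energies. -/
theorem sk_four_fe (hn : 2 ≤ n) (hK : 1 ≤ K) (hm : Em K m) (hb : 0 < b K) (hκ : 0 < κ)
    (hκ1 : κ ≤ 1) (h2 : (1 + κ) * m K ≤ 1) {A : ℝ} (hA1 : 1 ≤ A)
    (hA : m 1 * ((skS n K (up K κ m) b w).fe - (skS n K m b w).fe) ≤ A) {l : ℕ} (hl : l < K) :
    (skS n K m b w).pairEx l (fun x x' => Rov (fun x i => sp x i) x x' ^ 4) ≤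
      540 * (A / (κ * (m 1 * m K * (nP n * b K ^ 2)))) ^ 2 + 2 / (n : ℝ) ^ 2 :=
  sk_four hn hK hm hb hκ hκ1 h2 hA1 (incr_sk hK hm hκ.le h2 b w hA) hl

end Vale.Agent.P146.H66
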