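import Vale.Agent.P146.H66.M4SK

/-!
# P146 (helper66): the fourth moment in numbers

If the exponents are of order `x`, the last level carries bonds of share `τ x²` and doubling the
last exponent costs at most `E0 n x⁵`, then `E R⁴ ≤ C (E0 / τ)² x⁴` at every level.
-/

open MeasureTheory ProbabilityTheory

namespace Vale.Agent.P146.H66

open Vale.Agent.P157 Vale.Agent.P157.Lv Vale.Agent.P157.Lv.Sy
open Vale.Agent.P146.H784 Vale.Agent.P146.H425 Vale.Agent.P146.H785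
open Vale.Agent.P146.H325 Vale.Agent.P146.H93

variable {n K : ℕ} {m b w : ℕ → ℝ}

/-- **The fourth moment in numbers** (a factor `1 + κ` in the last exponent). -/
theorem sk_four_num (hn : 2 ≤ n) (hK : 1 ≤ K) (hm : Em K m) (hb : 0 < b K) {κ x E0 τ c1 c2 : ℝ}
    (hκ : 0 < κ) (hκ1 : κ ≤ 1) (h2 : (1 + κ) * m K ≤ 1) (hx : 0 < x) (hc1 : 0 < c1)
    (hc2 : 0 < c2) (hτ : 0 < τ)
    (h1 : c1 * x ≤ m 1) (h1' : m 1 ≤ c2 * x) (hbK : τ * x ^ 2 ≤ n * b K ^ 2)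
    (hE : (skS n K (up K κ m) b w).fe - (skS n K m b w).fe ≤ E0 * n * x ^ 5)
    (hE1 : 1 ≤ c2 * E0 * (n * x ^ 6)) (hn2 : 1 ≤ n * x ^ 2) {l : ℕ} (hl : l < K) :
    (skS n K m b w).pairEx l (fun x x' => Rov (fun x i => sp x i) x x' ^ 4) ≤
      (540 * (4 * c2 * E0 / (κ * c1 ^ 2 * τ)) ^ 2 + 2) * x ^ 4 := by
  have hn' : (2 : ℝ) ≤ n := by exact_mod_cast hn
  have hS := (linS_sk hm b w (n := n)).reg
  have hmK : m 1 ≤ m K := hS.m_mono hK (Nat.le_succ _)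
  have hm1 : 0 < m 1 := hm.pos
  have hmK0 : 0 < m K := hm1.trans_le hmK
  have hE0 : 0 < E0 := by
    by_contra h
    have : c2 * E0 * (n * x ^ 6) ≤ 0 :=
      mul_nonpos_of_nonpos_of_nonneg (mul_nonpos_of_nonneg_of_nonpos hc2.le (not_lt.1 h))
        (by positivity)
    linarith
  obtain ⟨A, hA⟩ : ∃ A, A = c2 * E0 * (n * x ^ 6) := ⟨_, rfl⟩
  have hA1 : 1 ≤ A := by rw [hA]; exact hE1
  have hAle : m 1 * ((skS n K (up K κ m) b w).fe - (skS n K m b w).fe) ≤ A := by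
    have e1 : m 1 * ((skS n K (up K κ m) b w).fe - (skS n K m b w).fe) ≤
        m 1 * (E0 * n * x ^ 5) := mul_le_mul_of_nonneg_left hE hm1.le
    have e2 : m 1 * (E0 * n * x ^ 5) ≤ c2 * x * (E0 * n * x ^ 5) :=
      mul_le_mul_of_nonneg_right h1' (by positivity)
    have e3 : c2 * x * (E0 * n * x ^ 5) = A := by rw [hA]; ring
    linarith
  have h4 := sk_four_fe (w := w) hn hK hm hb hκ hκ1 h2 hA1 hAle hl
  obtain ⟨q, hq⟩ : ∃ q, q = κ * (m 1 * m K * (nP n * b K ^ 2)) := ⟨_, rfl⟩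
  have hq1 : κ * c1 ^ 2 * τ * (n * x ^ 4) / 4 ≤ q := by
    have e1 : n / 4 * (τ * x ^ 2) ≤ nP n * b K ^ 2 := by
      rw [nP_eq]
      have : (n : ℝ) / 4 * (n * b K ^ 2) ≤ n * (n - 1) / 2 * b K ^ 2 := by
        have : (0 : ℝ) ≤ b K ^ 2 := sq_nonneg _
        nlinarith [mul_nonneg (mul_nonneg (by linarith : (0 : ℝ) ≤ n)
          (by linarith : (0 : ℝ) ≤ (n : ℝ) - 2)) this]
      refine le_trans ?_ this
      exact mul_le_mul_of_nonneg_left hbK (by positivity)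
    have e2 : (c1 * x) * (c1 * x) ≤ m 1 * m K :=
      mul_le_mul h1 (h1.trans hmK) (by positivity) hm1.le
    have e3 : (c1 * x) * (c1 * x) * (n / 4 * (τ * x ^ 2)) ≤ m 1 * m K * (nP n * b K ^ 2) :=
      mul_le_mul e2 e1 (by positivity) (by positivity)
    rw [hq]
    calc κ * c1 ^ 2 * τ * (n * x ^ 4) / 4
        = κ * ((c1 * x) * (c1 * x) * (n / 4 * (τ * x ^ 2))) := by ring
      _ ≤ κ * (m 1 * m K * (nP n * b K ^ 2)) := mul_le_mul_of_nonneg_left e3 hκ.le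
  have hq0 : 0 < κ * c1 ^ 2 * τ * (n * x ^ 4) / 4 := by positivity
  have h5 : A / q ≤ 4 * c2 * E0 / (κ * c1 ^ 2 * τ) * x ^ 2 := by
    rw [div_le_iff₀ (hq0.trans_le hq1)]
    calc A = 4 * c2 * E0 / (κ * c1 ^ 2 * τ) * x ^ 2 * (κ * c1 ^ 2 * τ * (n * x ^ 4) / 4) := by
          rw [hA]; field_simp
      _ ≤ _ := mul_le_mul_of_nonneg_left hq1 (by positivity)
  have h6 : (A / q) ^ 2 ≤ (4 * c2 * E0 / (κ * c1 ^ 2 * τ) * x ^ 2) ^ 2 :=
    pow_le_pow_left₀ (by have := hq0.trans_le hq1; positivity) h5 2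
  have h7 : 2 / (n : ℝ) ^ 2 ≤ 2 * x ^ 4 := by
    rw [div_le_iff₀ (by positivity)]
    have : 1 ≤ ((n : ℝ) * x ^ 2) ^ 2 := one_le_pow₀ hn2
    nlinarith
  rw [← hq] at h4
  nlinarith

end Vale.Agent.P146.H66
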