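import Vale.Agent.P146.H425.Kf

/-!
# P146 (helper66): exponential moments of the overlap given the levels at most `l`

If the exponent `m_{l+1}` is increased, the log-weight `l` increases at least by
`(m'_{l+1} - m_{l+1}) kf_l` (`tangent_lg`).  Going down the levels (Jensen) this gives
`E exp(m_1 f) ≤ exp(m_1 (lg'_0 - lg_0))` for every `f ≤ (m'_{l+1} - m_{l+1}) kf_l`.
-/

open MeasureTheory ProbabilityTheory

namespace Vale.Agent.P146.H66

open Vale.Agent.P157 Vale.Agent.P157.Lv Vale.Agent.P157.Lv.Sy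
open Vale.Agent.P146.H784 Vale.Agent.P146.H425

set_option linter.unusedSectionVars false
set_option linter.unusedVariables false

variable {ι X : Type} [Fintype ι] [Fintype X] [Nonempty X]

variable {S : Sy ι X} {a : X → ι → ℝ} {c : X → ℝ} {l : ℕ} {m' : ℕ → ℝ}

/-- **The log-weights are nondecreasing in the exponents.** -/
theorem lg_mono_m (hS : S.Reg) (hS' : (wm S m').Reg) (hm : ∀ j, 1 ≤ j → j ≤ S.K → S.m j ≤ m' j) :
    ∀ l ≤ S.K, ∀ z, S.lg l z ≤ (wm S m').lg l z := by
  refine down_ind (P := fun l => ∀ z, S.lg l z ≤ (wm S m').lg l z) ?_ ?_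
  · intro z
    rw [lg_top]
    have h : (wm S m').lg (wm S m').K = (wm S m').top := lg_top _
    have h' : (wm S m').lg S.K = (wm S m').top := h
    rw [h']
    exact le_rfl
  · intro l hl ih z
    have hm0 : 0 < S.m (l + 1) := hS.m_pos (by omega) (by omega)
    have hm1 : S.m (l + 1) ≤ m' (l + 1) := hm _ (by omega) hl
    have hm2 : 0 < m' (l + 1) := hm0.trans_le hm1
    obtain ⟨B, hB⟩ : ∃ B, B = (wm S m').lg l z := ⟨_, rfl⟩
    obtain ⟨θ, hθ⟩ : ∃ θ, θ = S.m (l + 1) / m' (l + 1) := ⟨_, rfl⟩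
    have hθ0 : 0 ≤ θ := by rw [hθ]; positivity
    have hθ1 : θ ≤ 1 := by rw [hθ]; exact (div_le_one hm2).2 hm1
    have hθm : θ * m' (l + 1) = S.m (l + 1) := by rw [hθ]; field_simp
    have l1 := hS.lip_lg (l := l + 1) hl
    have l2 : Lip ((wm S m').lg (l + 1)) := hS'.lip_lg (l := l + 1) hl
    have e1 := hS.J_exp_lg hl z
    have e2 : J S.lev l (fun z => Real.exp (m' (l + 1) * (wm S m').lg (l + 1) z)) z =
        Real.exp (m' (l + 1) * (wm S m').lg l z) := hS'.J_exp_lg (S := wm S m') hl z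
    -- pointwise
    have h1 : ∀ y, Real.exp (S.m (l + 1) * S.lg (l + 1) y) ≤
        Real.exp (S.m (l + 1) * B) * ((1 - θ) + θ * (Real.exp (-(m' (l + 1) * B)) *
          Real.exp (m' (l + 1) * (wm S m').lg (l + 1) y))) := by
      intro y
      have h2 := exp_mul_le_tangent hθ0 hθ1 (m' (l + 1) * ((wm S m').lg (l + 1) y - B))
      have h3 : Real.exp (-(m' (l + 1) * B)) * Real.exp (m' (l + 1) * (wm S m').lg (l + 1) y) =
          Real.exp (m' (l + 1) * ((wm S m').lg (l + 1) y - B)) := by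
        rw [← Real.exp_add]; congr 1; ring
      rw [h3]
      refine le_trans ?_ (mul_le_mul_of_nonneg_left h2 (Real.exp_pos _).le)
      rw [← Real.exp_add, ← mul_assoc, hθm]
      refine Real.exp_le_exp.2 ?_
      have := mul_le_mul_of_nonneg_left (ih y) hm0.le
      linarith
    have g1 : EG fun z => Real.exp (S.m (l + 1) * S.lg (l + 1) z) := l1.exp_eg _
    have g2 : EG fun z => Real.exp (m' (l + 1) * (wm S m').lg (l + 1) z) := l2.exp_eg _
    have h4 := J_mono (lev := S.lev) (l := l) g1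
      (((EG.const (1 - θ)).add ((g2.const_mul (Real.exp (-(m' (l + 1) * B)))).const_mul
        θ)).const_mul (Real.exp (S.m (l + 1) * B))) h1 z
    rw [J_const_mul, J_add (EG.const _) ((g2.const_mul _).const_mul _), J_const, J_const_mul,
      J_const_mul, e1, e2, ← hB, ← Real.exp_add] at h4
    rw [show -(m' (l + 1) * B) + m' (l + 1) * B = 0 by ring, Real.exp_zero, mul_one,
      show (1 : ℝ) - θ + θ = 1 by ring, mul_one] at h4
    have h5 := Real.exp_le_exp.1 h4
    rw [← hB]
    exact le_of_mul_le_mul_left h5 hm0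

section expm

variable [DecidableEq ι]

/-- **Exponential moments**, going down the levels. -/
theorem T_exp_le (h : LinS S a c) (hS' : (wm S m').Reg) (hl : l < S.K)
    (heq : ∀ j, j ≠ l + 1 → m' j = S.m j) (hm : S.m (l + 1) ≤ m' (l + 1)) {f : (ι → ℝ) → ℝ}
    (hf : ∀ t : ℝ, EG fun z => Real.exp (t * f z)) (hfd : Dep S.lev l f)
    (hfk : ∀ z, f z ≤ (m' (l + 1) - S.m (l + 1)) * kf S l z) :
    ∀ j ≤ l, ∀ z, S.T j (fun z _ => Real.exp (S.m (j + 1) * f z)) z ≤
      Real.exp (S.m (j + 1) * ((wm S m').lg j z - S.lg j z)) := by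
  have hS := h.reg
  have hmp : ∀ j, j < S.K → 0 < S.m (j + 1) := fun j hj => hS.m_pos (by omega) (by omega)
  refine down_ind (P := fun j => ∀ z, S.T j (fun z _ => Real.exp (S.m (j + 1) * f z)) z ≤
      Real.exp (S.m (j + 1) * ((wm S m').lg j z - S.lg j z))) ?_ ?_
  · intro z
    have hd : Dep S.lev l (fun z => Real.exp (S.m (l + 1) * f z)) :=
      lc_dep_comp hfd fun t => Real.exp (S.m (l + 1) * t)
    rw [hS.T_fst hl.le hd]
    refine Real.exp_le_exp.2 (mul_le_mul_of_nonneg_left ?_ (hmp l hl).le)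
    have h1 := LinS.tangent_lg h hl (m' := m') ((hmp l hl).trans_le hm)
      (fun j hj _ => heq j (by omega)) z
    have h2 := hfk z
    linarith
  · intro j hj ih z
    have hjK : j < S.K := by omega
    have hjK' : j + 1 < S.K := by omega
    have hm0 := hmp j hjK
    have hm1 := hmp (j + 1) hjK'
    have hmm : S.m (j + 1) ≤ S.m (j + 1 + 1) := hS.mono (j + 1) (by omega)
    obtain ⟨θ, hθ⟩ : ∃ θ, θ = S.m (j + 1) / S.m (j + 1 + 1) := ⟨_, rfl⟩
    have hθ0 : 0 ≤ θ := by rw [hθ]; positivity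
    have hθ1 : θ ≤ 1 := by rw [hθ]; exact (div_le_one hm1).2 hmm
    have hθm : θ * S.m (j + 1 + 1) = S.m (j + 1) := by rw [hθ]; field_simp
    have nf : ∀ t : ℝ, Nh (X := X) fun z _ => Real.exp (t * f z) := fun t => Nh.fst (hf t)
    -- the conditional power mean inequality
    have key : ∀ y, S.T (j + 1) (fun z _ => Real.exp (S.m (j + 1) * f z)) y ≤
        Real.exp (S.m (j + 1) * ((wm S m').lg (j + 1) y - S.lg (j + 1) y)) := by
      intro y
      obtain ⟨B, hB⟩ : ∃ B, B = (wm S m').lg (j + 1) y - S.lg (j + 1) y := ⟨_, rfl⟩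
      have h1 : ∀ w, Real.exp (S.m (j + 1) * f w) ≤ Real.exp (S.m (j + 1) * B) * (1 - θ) +
          Real.exp (S.m (j + 1) * B) * θ * Real.exp (-(S.m (j + 1 + 1) * B)) *
            Real.exp (S.m (j + 1 + 1) * f w) := by
        intro w
        have h2 := exp_mul_le_tangent hθ0 hθ1 (S.m (j + 1 + 1) * (f w - B))
        have h3 : Real.exp (-(S.m (j + 1 + 1) * B)) * Real.exp (S.m (j + 1 + 1) * f w) =
            Real.exp (S.m (j + 1 + 1) * (f w - B)) := by
          rw [← Real.exp_add]; congr 1; ring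
        have h4 := mul_le_mul_of_nonneg_left h2 (Real.exp_pos (S.m (j + 1) * B)).le
        rw [← Real.exp_add, ← mul_assoc, hθm] at h4
        have h5 : S.m (j + 1) * B + S.m (j + 1) * (f w - B) = S.m (j + 1) * f w := by ring
        rw [h5] at h4
        refine h4.trans (le_of_eq ?_)
        rw [← h3]
        ring
      have h6 := hS.T_mono hjK'.le (nf (S.m (j + 1)))
        (Nh.add (Nh.fst (EG.const (Real.exp (S.m (j + 1) * B) * (1 - θ))))
          (Nh.const_mul (Real.exp (S.m (j + 1) * B) * θ * Real.exp (-(S.m (j + 1 + 1) * B)))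
            (nf (S.m (j + 1 + 1))))) (fun w _ => h1 w) y
      rw [hS.T_add hjK'.le (Nh.fst (EG.const _)) (Nh.const_mul _ (nf _)), hS.T_const hjK'.le,
        T_const_mul] at h6
      have h7 := mul_le_mul_of_nonneg_left (ih y) (by positivity : 0 ≤
        Real.exp (S.m (j + 1) * B) * θ * Real.exp (-(S.m (j + 1 + 1) * B)))
      rw [← hB] at h7 ⊢
      have h8 : Real.exp (S.m (j + 1) * B) * θ * Real.exp (-(S.m (j + 1 + 1) * B)) *
          Real.exp (S.m (j + 1 + 1) * B) = Real.exp (S.m (j + 1) * B) * θ := by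
        rw [mul_assoc, ← Real.exp_add, neg_add_cancel, Real.exp_zero, mul_one]
      rw [h8] at h7
      refine h6.trans ((add_le_add_right h7 _).trans (le_of_eq ?_))
      ring
    -- one step of the recursion
    have l1 := hS.lip_lg (l := j + 1) hjK
    have l2 : Lip ((wm S m').lg (j + 1)) := hS'.lip_lg (l := j + 1) hjK
    have hmj : m' (j + 1) = S.m (j + 1) := heq _ (by omega)
    have e1 : J S.lev j (fun z => Real.exp (S.m (j + 1) * (wm S m').lg (j + 1) z)) z =
        Real.exp (S.m (j + 1) * (wm S m').lg j z) := by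
      have := hS'.J_exp_lg (S := wm S m') (l := j) hjK z
      rw [wm_m, wm_lev, hmj] at this
      exact this
    have hd : Dep S.lev j (fun z => Real.exp (-(S.m (j + 1) * S.lg j z))) :=
      lc_dep_comp (hS.dep_lg hjK.le) fun t => Real.exp (-(S.m (j + 1) * t))
    have e2 : J S.lev j (fun z => S.pW j z *
        Real.exp (S.m (j + 1) * ((wm S m').lg (j + 1) z - S.lg (j + 1) z))) z =
        Real.exp (S.m (j + 1) * ((wm S m').lg j z - S.lg j z)) := by
      have h4 : (fun z => S.pW j z *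
          Real.exp (S.m (j + 1) * ((wm S m').lg (j + 1) z - S.lg (j + 1) z))) =
          fun z => Real.exp (-(S.m (j + 1) * S.lg j z)) *
            Real.exp (S.m (j + 1) * (wm S m').lg (j + 1) z) := by
        funext y
        unfold pW
        rw [← Real.exp_add, ← Real.exp_add]
        congr 1
        ring
      rw [h4, hd.J_mul, e1, ← Real.exp_add]
      congr 1
      ring
    rw [← e2, hS.T_step hjK (nf _)]
    refine J_mono ((hS.pW_eg hjK).mul (hS.eg_T hjK (nf _))) ?_ (fun y =>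
      mul_le_mul_of_nonneg_left (key y) (S.pW_pos j y).le) z
    have e3 : (fun z => Real.exp (S.m (j + 1) * ((wm S m').lg (j + 1) z - S.lg (j + 1) z))) =
        fun z => Real.exp (S.m (j + 1) * (wm S m').lg (j + 1) z) *
          Real.exp (-S.m (j + 1) * S.lg (j + 1) z) := by
      funext y
      rw [← Real.exp_add]
      congr 1
      ring
    refine (hS.pW_eg hjK).mul ?_
    rw [e3]
    exact (l2.exp_eg _).mul (l1.exp_eg _)

/-- the exponential moment under the full law -/
theorem Ex_exp_le (h : LinS S a c) (hS' : (wm S m').Reg) (hl : l < S.K)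
    (heq : ∀ j, j ≠ l + 1 → m' j = S.m j) (hm : S.m (l + 1) ≤ m' (l + 1)) {f : (ι → ℝ) → ℝ}
    (hf : ∀ t : ℝ, EG fun z => Real.exp (t * f z)) (hfd : Dep S.lev l f)
    (hfk : ∀ z, f z ≤ (m' (l + 1) - S.m (l + 1)) * kf S l z) {A : ℝ}
    (hA : ∀ z, S.m 1 * ((wm S m').lg 0 z - S.lg 0 z) ≤ A) :
    S.Ex (fun z _ => Real.exp (S.m 1 * f z)) ≤ Real.exp A := by
  have hS := h.reg
  have nf : Nh (X := X) fun z _ => Real.exp (S.m 1 * f z) := Nh.fst (hf _)
  have h1 := hS.Ex_T (l := 0) (Nat.zero_le _) nf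
  rw [← h1]
  refine (hS.Ex_mono (Nh.fst (hS.eg_T (Nat.zero_le _) nf)) (Nh.fst (EG.const (Real.exp A)))
    fun z _ => ?_).trans (le_of_eq (hS.Ex_const _))
  exact (T_exp_le h hS' hl heq hm hf hfd hfk 0 (Nat.zero_le _) z).trans
    (Real.exp_le_exp.2 (hA z))

/-- from the exponential moment to all moments -/
theorem Ex_pow_le (hS : S.Reg) {Y : (ι → ℝ) → ℝ} (hY : EG Y) (hY' : EG fun z => Real.exp (Y z))
    (h0 : ∀ z, 0 ≤ Y z) {A : ℝ} (hA1 : 1 ≤ A)
    (hA : S.Ex (fun z _ => Real.exp (Y z)) ≤ Real.exp A) (p : ℕ) :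
    S.Ex (fun z _ => Y z ^ p) ≤ Real.exp 1 * p.factorial * A ^ p := by
  have hA0 : 0 < A := by linarith
  have h1 : ∀ z, Y z ^ p ≤ p.factorial * A ^ p * Real.exp 1 * (1 - 1 / A) +
      p.factorial * A ^ p * Real.exp 1 * (1 / A) * Real.exp (-A) * Real.exp (Y z) := by
    intro z
    have h2 := Real.pow_div_factorial_le_exp (Y z / A) (div_nonneg (h0 z) hA0.le) p
    have h3 : Y z ^ p ≤ p.factorial * A ^ p * Real.exp (Y z / A) := by
      rw [div_pow, div_div, div_le_iff₀ (by positivity)] at h2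
      linarith
    have h4 := exp_mul_le_tangent (θ := 1 / A) (by positivity)
      (by rw [div_le_one hA0]; exact hA1) (Y z - A)
    have h5 : Real.exp (Y z / A) = Real.exp 1 * Real.exp (1 / A * (Y z - A)) := by
      rw [← Real.exp_add]
      congr 1
      field_simp
      ring
    have h6 : Real.exp (-A) * Real.exp (Y z) = Real.exp (Y z - A) := by
      rw [← Real.exp_add]
      congr 1
      ring
    calc Y z ^ p ≤ p.factorial * A ^ p * Real.exp (Y z / A) := h3
      _ = p.factorial * A ^ p * Real.exp 1 * Real.exp (1 / A * (Y z - A)) := by rw [h5]; ring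
      _ ≤ p.factorial * A ^ p * Real.exp 1 * ((1 - 1 / A) + 1 / A * Real.exp (Y z - A)) :=
          mul_le_mul_of_nonneg_left h4 (by positivity)
      _ = _ := by rw [← h6]; ring
  have nY : Nh (X := X) fun z _ => Real.exp (Y z) := Nh.fst hY'
  have h7 := hS.Ex_mono (f := fun z _ => Y z ^ p) (Nh.fst (hY.pow p))
    (Nh.add (Nh.fst (EG.const (p.factorial * A ^ p * Real.exp 1 * (1 - 1 / A))))
      (Nh.const_mul (p.factorial * A ^ p * Real.exp 1 * (1 / A) * Real.exp (-A)) nY))
    (fun z _ => h1 z)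
  rw [hS.Ex_add (Nh.fst (EG.const _)) (Nh.const_mul _ nY), hS.Ex_const, Ex_const_mul] at h7
  have h8 := mul_le_mul_of_nonneg_left hA (by positivity :
    0 ≤ p.factorial * A ^ p * Real.exp 1 * (1 / A) * Real.exp (-A))
  have h9 : p.factorial * A ^ p * Real.exp 1 * (1 / A) * Real.exp (-A) * Real.exp A =
      p.factorial * A ^ p * Real.exp 1 * (1 / A) := by
    rw [mul_assoc, ← Real.exp_add, neg_add_cancel, Real.exp_zero, mul_one]
  rw [h9] at h8
  have h10 : p.factorial * A ^ p * Real.exp 1 * (1 - 1 / A) +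
      p.factorial * A ^ p * Real.exp 1 * (1 / A) = Real.exp 1 * p.factorial * A ^ p := by ring
  linarith

end expm

end Vale.Agent.P146.H66
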