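import Vale.Agent.P146.H66.Split
import Vale.Agent.P146.H66.Expo
import Vale.Agent.P146.H785.Therm
import Vale.Agent.P146.H93.Tl0

/-!
# P146 (helper66): the second moment of `Rov φ` for two replicas which split at the level `K - 1`

`Rov φ` is the overlap for the functions `φ x i` (`i : Fin N`); for the pair functions
`σ_i σ_j` it is (up to `1/n`) the square of the overlap, so this is a bound of `E R^4`.
Only the last level has to contain the coordinates `s φ`, and the bound contains only the increment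
of the free energy when the last exponent is doubled.
-/

open MeasureTheory ProbabilityTheory

namespace Vale.Agent.P146.H66

open Vale.Agent.P157 Vale.Agent.P157.Lv Vale.Agent.P157.Lv.Sy
open Vale.Agent.P146.H784 Vale.Agent.P146.H425 Vale.Agent.P146.H785

set_option linter.unusedSectionVars false
set_option linter.unusedVariables false

variable {ι X : Type} [Fintype ι] [DecidableEq ι] [Fintype X] [DecidableEq X] [Nonempty X]
  {S : Sy ι X} {a : X → ι → ℝ} {c : X → ℝ} {N : ℕ} {φ : X → Fin N → ℝ} {zc : Fin N → ι} {s : ℝ}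

/-- the coefficients of the cut system -/
noncomputable def asp (S : Sy ι X) (N : ℕ) (a : X → ι → ℝ) (x : X) : Ind S N → ℝ :=
  Sum.elim (Sum.elim (fun e => (if S.lev e < S.K then 1 else rh) * a x e)
    fun e => (if S.lev e < S.K then 0 else rh) * a x e) fun _ => 0

lemma linS_spl (h : LinS S a c) (hK : 1 ≤ S.K) : LinS (spl S N) (asp S N a) c where
  reg := spl_reg h.reg hK
  H := by
    intro z x
    have e1 : (spl S N).H z x = S.H (pj S N z) x := rfl
    rw [e1, h.H, Fintype.sum_sum_type, Fintype.sum_sum_type]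
    congr 1
    have e2 : ∑ p : Fin (S.K + 2) × Fin N, asp S N a x (Sum.inr p) * z (Sum.inr p) = 0 :=
      Finset.sum_eq_zero fun p _ => by
        show (0 : ℝ) * _ = 0
        ring
    rw [e2, add_zero, ← Finset.sum_add_distrib]
    refine Finset.sum_congr rfl fun e _ => ?_
    show a x e * pj S N z e = (if S.lev e < S.K then 1 else rh) * a x e * _ +
      (if S.lev e < S.K then 0 else rh) * a x e * _
    unfold pj
    ring

/-- The coordinates `s φ` in the last level. -/
structure Lst (S : Sy ι X) (a : X → ι → ℝ) (φ : X → Fin N → ℝ) (zc : Fin N → ι) (s : ℝ) :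
    Prop where
  N0 : 0 < N
  s0 : 0 < s
  norm : ∀ x, ∑ i, φ x i ^ 2 = N
  inj : Function.Injective zc
  lev : ∀ i, S.lev (zc i) = S.K
  a : ∀ i x, a x (zc i) = s * φ x i

/-- the field coordinates of the cut system -/
def zsp (S : Sy ι X) (zc : Fin N → ι) (j : ℕ) (i : Fin N) : Ind S N :=
  if j = S.K then Sum.inl (Sum.inl (zc i)) else
    if h : j < S.K + 2 then Sum.inr (⟨j, h⟩, i) else Sum.inl (Sum.inl (zc i))

lemma fld_spl (h : LinS S a c) (hK : 1 ≤ S.K) (hL : Lst S a φ zc s) :
    Fld (spl S N) (fun e _ x => asp S N a x e) φ (zsp S zc)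
      (fun j => if j = S.K then rh * s else 0) where
  reg := H93.regD (linS_spl h hK)
  N0 := hL.N0
  norm := hL.norm
  lev := by
    intro l hl i
    have hl' : l ≤ S.K + 1 := hl
    unfold zsp
    by_cases h1 : l = S.K
    · rw [if_pos h1, h1]
      exact hL.lev i
    · rw [if_neg h1, dif_pos (by omega)]
      rfl
  D := by
    intro l hl i z x
    have hl' : l ≤ S.K + 1 := hl
    unfold zsp
    by_cases h1 : l = S.K
    · rw [if_pos h1, if_pos h1]
      show (if S.lev (zc i) < S.K then 1 else rh) * a x (zc i) = _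
      rw [hL.lev i, if_neg (lt_irrefl _), hL.a]
      ring
    · rw [if_neg h1, dif_pos (by omega), if_neg h1]
      show (0 : ℝ) = 0 * _
      ring
  pos := by
    intro l hl
    split_ifs
    · exact mul_nonneg rh_nonneg hL.s0.le
    · exact le_rfl

/-- the last exponent multiplied by `1 + κ` -/
noncomputable def dm (S : Sy ι X) (κ : ℝ) (j : ℕ) : ℝ :=
  if j = S.K then (1 + κ) * S.m S.K else S.m j

variable {κ : ℝ}

lemma dm_reg (hS : S.Reg) (hK : 1 ≤ S.K) (hκ : 0 ≤ κ) (h2 : (1 + κ) * S.m S.K ≤ 1) :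
    (wm S (dm S κ)).Reg where
  m0 := by
    show (if 0 = S.K then (1 + κ) * S.m S.K else S.m 0) = 0
    rw [if_neg (by omega)]
    exact hS.m0
  mK := by
    show (if S.K + 1 = S.K then (1 + κ) * S.m S.K else S.m (S.K + 1)) = 1
    rw [if_neg (by omega)]
    exact hS.mK
  mono := by
    intro l hl
    have hl' : l ≤ S.K := hl
    have hp : 0 < S.m S.K := hS.m_pos hK (Nat.le_succ _)
    show (if l = S.K then (1 + κ) * S.m S.K else S.m l) ≤
      (if l + 1 = S.K then (1 + κ) * S.m S.K else S.m (l + 1))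
    by_cases h1 : l = S.K
    · rw [if_pos h1, if_neg (by omega), h1, hS.mK]
      exact h2
    · rw [if_neg h1]
      have := hS.mono l hl'
      split_ifs with h3
      · rw [h3] at this
        have := mul_nonneg hκ hp.le
        linarith
      · exact this
  pos := by
    show 0 < (if 1 = S.K then (1 + κ) * S.m S.K else S.m 1)
    have hp : 0 < S.m S.K := hS.m_pos hK (Nat.le_succ _)
    split_ifs
    · positivity
    · exact hS.pos
  lev := hS.lev
  lip := hS.lip

lemma rho_eq_sum (S : Sy ι X) (φ : X → Fin N → ℝ) (hN : 0 < N) (l : ℕ) (z : ι → ℝ) :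
    ∑ i, S.mg φ l i z ^ 2 = N * rho S φ l z := by
  have hN' : (0 : ℝ) < N := by exact_mod_cast hN
  unfold H784.rho
  field_simp

lemma rho_bd (hS : S.Reg) (hN : 0 < N) (hn : ∀ x, ∑ i, φ x i ^ 2 = N) {l : ℕ} (hl : l ≤ S.K)
    (z : ι → ℝ) : 0 ≤ rho S φ l z ∧ rho S φ l z ≤ 1 := by
  have hN' : (0 : ℝ) < N := by exact_mod_cast hN
  constructor
  · unfold H784.rho
    positivity
  · have h1 : ∀ i, S.mg φ l i z ^ 2 ≤ S.T l (fun _ x => φ x i ^ 2) z := fun i =>
      hS.sq_T_le hl (Nh.snd fun x => φ x i) z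
    have h2 : ∑ i, S.T l (fun _ x => φ x i ^ 2) z = N := by
      rw [← hS.T_sum hl (f := fun i _ x => φ x i ^ 2) Finset.univ
        fun i _ => Nh.snd fun x => φ x i ^ 2]
      simp only [hn]
      exact hS.T_const hl _ z
    have h3 : ∑ i, S.mg φ l i z ^ 2 ≤ N := (Finset.sum_le_sum fun i _ => h1 i).trans h2.le
    rw [rho_eq_sum S φ hN] at h3
    nlinarith

/-- the slope in the last exponent is at least `N s² / 2` times the conditional overlap -/
lemma kf_lst (h : LinS S a c) (hL : Lst S a φ zc s) {l : ℕ} (hl : l + 1 = S.K) (z : ι → ℝ) :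
    N * s ^ 2 / 2 * rho S φ l z ≤ kf S l z := by
  have h1 := LinS.kf_ge h (show l < S.K by omega) z
  have h2 : ∑ i, (s * S.mg φ l i z) ^ 2 ≤
      ∑ e, (if S.lev e = l + 1 then S.T l (fun _ x => a x e) z ^ 2 else 0) := by
    have h3 : ∑ i, (s * S.mg φ l i z) ^ 2 = ∑ e ∈ Finset.univ.map ⟨zc, hL.inj⟩,
        (if S.lev e = l + 1 then S.T l (fun _ x => a x e) z ^ 2 else 0) := by
      rw [Finset.sum_map]
      refine Finset.sum_congr rfl fun i _ => ?_
      show _ = (if S.lev (zc i) = l + 1 then S.T l (fun _ x => a x (zc i)) z ^ 2 else 0)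
      rw [if_pos (by rw [hL.lev, hl])]
      simp only [hL.a]
      rw [T_const_mul S l s (fun _ x => φ x i)]
      rfl
    rw [h3]
    exact Finset.sum_le_sum_of_subset_of_nonneg (Finset.subset_univ _) fun e _ _ => by
      split_ifs
      · positivity
      · exact le_rfl
  have h4 : ∑ i, (s * S.mg φ l i z) ^ 2 = s ^ 2 * (N * rho S φ l z) := by
    rw [← rho_eq_sum S φ hL.N0, Finset.mul_sum]
    exact Finset.sum_congr rfl fun i _ => by ring
  rw [h4] at h2
  linarith

lemma eg_exp_rho (hS : S.Reg) (hN : 0 < N) (hn : ∀ x, ∑ i, φ x i ^ 2 = N) {l : ℕ}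
    (hl : l ≤ S.K) (C t : ℝ) : EG fun z => Real.exp (t * (C * rho S φ l z)) := by
  have hm : Measurable (rho S φ l) := (H784.eg_rho hS hl).meas
  refine EG.of_bdd (C := Real.exp (|t * C|))
    (Real.measurable_exp.comp ((hm.const_mul C).const_mul t)) fun z => ?_
  rw [abs_of_pos (Real.exp_pos _)]
  refine Real.exp_le_exp.2 ?_
  have h1 := rho_bd hS hN hn hl z
  rw [← mul_assoc]
  refine (le_abs_self _).trans ?_
  rw [abs_mul, abs_of_nonneg h1.1]
  exact mul_le_of_le_one_right (abs_nonneg _) h1.2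

/-- **All moments of the conditional overlap** `rho_{K-1}`: with
`k = κ m_1 m_K N s²` and `A ≥ max(1, m_1 (lg_0(last exponent times 1 + κ) - lg_0))`,
`E rho_{K-1}^p ≤ e p! (2 A / k)^p`. -/
theorem rho_moment (h : LinS S a c) (hK : 1 ≤ S.K) (hκ : 0 < κ) (h2 : (1 + κ) * S.m S.K ≤ 1)
    (hL : Lst S a φ zc s) {A : ℝ} (hA1 : 1 ≤ A)
    (hA : ∀ z, S.m 1 * ((wm S (dm S κ)).lg 0 z - S.lg 0 z) ≤ A) {l : ℕ} (hl : l + 1 = S.K)
    (p : ℕ) :
    S.Ex (fun z _ => rho S φ l z ^ p) ≤
      Real.exp 1 * p.factorial * (2 * A / (κ * (S.m 1 * S.m S.K * (N * s ^ 2)))) ^ p := by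
  have hS := h.reg
  have hl' : l < S.K := by omega
  have hN' : (0 : ℝ) < N := by exact_mod_cast hL.N0
  have hs := hL.s0
  have hm1 : 0 < S.m 1 := hS.pos
  have hmK : 0 < S.m S.K := hS.m_pos hK (Nat.le_succ _)
  obtain ⟨C, hC⟩ : ∃ C, C = κ * S.m S.K * (N * s ^ 2 / 2) := ⟨_, rfl⟩
  have hC0 : 0 < C := by rw [hC]; positivity
  have hdm : dm S κ (l + 1) = (1 + κ) * S.m S.K := by
    unfold dm
    rw [if_pos hl]
  have hml : S.m (l + 1) = S.m S.K := by rw [hl]
  have e1 := Ex_exp_le (m' := dm S κ) (f := fun z => C * rho S φ l z) h (dm_reg hS hK hκ.le h2) hl'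
    (fun j hj => by unfold dm; rw [if_neg (by omega)])
    (by rw [hdm, hml]; nlinarith)
    (fun t => eg_exp_rho hS hL.N0 hL.norm hl'.le C t)
    (by
      intro z w
      show C * rho S φ l _ = C * rho S φ l _
      rw [H784.dep_rho S φ l z w])
    (fun z => by
      rw [hdm, hml]
      have h3 := mul_le_mul_of_nonneg_left (kf_lst h hL hl z) (mul_pos hκ hmK).le
      rw [hC]
      linarith) hA
  have e2 := Ex_pow_le (Y := fun z => S.m 1 * (C * rho S φ l z)) hS
    (((H784.eg_rho hS hl'.le).const_mul C).const_mul _)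
    (eg_exp_rho hS hL.N0 hL.norm hl'.le C (S.m 1))
    (fun z => mul_nonneg hm1.le (mul_nonneg hC0.le (rho_bd hS hL.N0 hL.norm hl'.le z).1))
    hA1 e1 p
  have e3 : (fun (z : ι → ℝ) (_ : X) => (S.m 1 * (C * rho S φ l z)) ^ p) =
      fun z _ => (S.m 1 * C) ^ p * rho S φ l z ^ p := by
    funext z _
    rw [← mul_assoc, mul_pow]
  rw [e3, Ex_const_mul] at e2
  have e4 : 2 * A / (κ * (S.m 1 * S.m S.K * (N * s ^ 2))) = A / (S.m 1 * C) := by
    rw [hC]
    field_simp
  rw [e4, div_pow, ← mul_div_assoc, le_div_iff₀ (by positivity)]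
  linarith

end Vale.Agent.P146.H66
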