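import Vale.Agent.P146.H66.M4

/-!
# P146 (helper66): the fourth moment of the overlap

`pair_sq_last`: for two replicas which split at the level `K - 1`, or at a lower level,
`E (Rov φ)² ≤ 270 (A / k)²`, with `k = κ m_1 m_K N s²` and
`A ≥ max(1, m_1 (lg_0(last exponent times 1 + κ) - lg_0))`.
-/

open MeasureTheory ProbabilityTheory

namespace Vale.Agent.P146.H66

open Vale.Agent.P157 Vale.Agent.P157.Lv Vale.Agent.P157.Lv.Sy
open Vale.Agent.P146.H784 Vale.Agent.P146.H425 Vale.Agent.P146.H785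

set_option linter.unusedSectionVars false
set_option linter.unusedVariables false

section pb

variable {ι ι' X : Type} [Fintype ι] [Fintype ι'] [DecidableEq ι] [Fintype X] [DecidableEq X]
  [Nonempty X] {S : Sy ι X} {S' : Sy ι' X} {π : (ι' → ℝ) → (ι → ℝ)} {g : ℕ → ℕ}

lemma PB.pr (h : PB S S' π g) (hS : S.Reg) (hS' : S'.Reg) {l : ℕ} (hl : l ≤ S.K) (z : ι' → ℝ)
    (x : X) : S'.pr (g l) z x = S.pr l (π z) x := by
  unfold Sy.pr
  exact h.T hS hS' hl (Nh.snd fun y => if y = x then (1 : ℝ) else 0) z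

lemma PB.pairEx (h : PB S S' π g) (hS : S.Reg) (hS' : S'.Reg) {l : ℕ} (hl : l ≤ S.K)
    (ψ : X → X → ℝ) : S'.pairEx (g l) ψ = S.pairEx l ψ := by
  unfold Sy.pairEx
  have h1 : (fun (z : ι' → ℝ) (_ : X) => ∑ x, ∑ x', S'.pr (g l) z x * S'.pr (g l) z x' * ψ x x') =
      fun z x => (fun (z : ι → ℝ) (_ : X) => ∑ x, ∑ x', S.pr l z x * S.pr l z x' * ψ x x')
        (π z) x := by
    funext z _
    simp only [h.pr hS hS' hl]
  rw [h1, h.Ex hS hS' (Nh.fst (hS.nh_pair hl ψ))]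

end pb

variable {ι X : Type} [Fintype ι] [DecidableEq ι] [Fintype X] [DecidableEq X] [Nonempty X]
  {S : Sy ι X} {a : X → ι → ℝ} {c : X → ℝ} {N : ℕ} {φ : X → Fin N → ℝ} {zc : Fin N → ι} {s : ℝ}

/-- `E[(Rov φ)² | levels ≤ l]` for two replicas which split at the level `l` -/
noncomputable def X4 (S : Sy ι X) (φ : X → Fin N → ℝ) (l : ℕ) (z : ι → ℝ) : ℝ :=
  1 / N ^ 2 * ∑ a, ∑ b, S.T l (fun _ x => φ x a * φ x b) z * S.T l (fun _ x => φ x a * φ x b) z

lemma eg_X4 (hS : S.Reg) {l : ℕ} (hl : l ≤ S.K) : EG (X4 S φ l) :=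
  EG.const_mul _ (EG.sum _ fun a _ => EG.sum _ fun b _ =>
    (hS.eg_T hl (Nh.snd fun x => φ x a * φ x b)).mul (hS.eg_T hl (Nh.snd fun x => φ x a * φ x b)))

/-- **The conditional fourth moment.** -/
theorem X4_le {D : ι → (ι → ℝ) → X → ℝ} {zf : ℕ → Fin N → ι} {sf : ℕ → ℝ}
    (F : Fld S D φ zf sf) {l : ℕ} (hl : l < S.K) (hinj : Function.Injective (zf (l + 1)))
    (hs : 0 < sf (l + 1)) (z : ι → ℝ) :
    X4 S φ l z ≤ 4 / (N * sf (l + 1) ^ 2 * S.m (l + 1) ^ 2) *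
        S.T l (fun z _ => rho S φ (l + 1) z) z +
      2 * S.T l (fun z _ => rho S φ (l + 1) z) z ^ 2 := by
  have hS := F.hreg
  have hN := F.N_pos
  have hm : 0 < S.m (l + 1) := hS.m_pos (by omega) (by omega)
  have h1 := cvN_le F hl hinj hs z
  have hw := wl_nonneg (φ := φ) hS hl z
  have hr := rho_nonneg' F (l := l) z
  have e1 : S.T l (fun z _ => rho S φ (l + 1) z) z = wl S φ l z + rho S φ l z := by
    unfold wl; ring
  rw [e1]
  -- `X4 ≤ 2 cvN / N² + 2 rho²`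
  have h2 : X4 S φ l z ≤ 2 * (1 / N ^ 2 * cvN S φ l z) + 2 * rho S φ l z ^ 2 := by
    have e2 : (N : ℝ) ^ 2 * rho S φ l z ^ 2 =
        ∑ a, ∑ b, (S.mg φ l a z * S.mg φ l b z) ^ 2 := by
      have e4 : ∑ a, ∑ b, (S.mg φ l a z * S.mg φ l b z) ^ 2 = (∑ i, S.mg φ l i z ^ 2) ^ 2 := by
        rw [sq (∑ i, S.mg φ l i z ^ 2), Finset.sum_mul_sum]
        refine Finset.sum_congr rfl fun a _ => Finset.sum_congr rfl fun b _ => ?_
        ring
      rw [e4, rho_eq_sum S φ F.N0]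
      ring
    have e3 : rho S φ l z ^ 2 = 1 / N ^ 2 * ∑ a, ∑ b, (S.mg φ l a z * S.mg φ l b z) ^ 2 := by
      rw [← e2]
      field_simp
    rw [e3]
    unfold X4 cvN
    have e5 : 2 * (1 / (N : ℝ) ^ 2 * ∑ a, ∑ b, cv S φ l a b z ^ 2) +
        2 * (1 / (N : ℝ) ^ 2 * ∑ a, ∑ b, (S.mg φ l a z * S.mg φ l b z) ^ 2) =
        1 / (N : ℝ) ^ 2 * ∑ a, ∑ b, (2 * cv S φ l a b z ^ 2 +
          2 * (S.mg φ l a z * S.mg φ l b z) ^ 2) := by
      simp_rw [Finset.sum_add_distrib, ← Finset.mul_sum]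
      ring
    rw [e5]
    refine mul_le_mul_of_nonneg_left (Finset.sum_le_sum fun a _ => Finset.sum_le_sum fun b _ => ?_)
      (by positivity)
    have e6 : S.T l (fun _ x => φ x a * φ x b) z =
        cv S φ l a b z + S.mg φ l a z * S.mg φ l b z := by
      unfold cv; ring
    rw [e6]
    nlinarith [sq_nonneg (cv S φ l a b z - S.mg φ l a z * S.mg φ l b z)]
  have hq : 0 ≤ 4 / (N * sf (l + 1) ^ 2 * S.m (l + 1) ^ 2) := by positivity
  have h3 : 2 * (2 / (N * sf (l + 1) ^ 2 * S.m (l + 1) ^ 2) * wl S φ l z) =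
      4 / (N * sf (l + 1) ^ 2 * S.m (l + 1) ^ 2) * wl S φ l z := by ring
  nlinarith [mul_nonneg hq hr, mul_nonneg hw hr]

lemma inj_zsp (hL : Lst S a φ zc s) {l : ℕ} (hl : l + 1 = S.K) :
    Function.Injective (zsp S zc (l + 1)) := by
  intro i j hij
  unfold zsp at hij
  rw [if_pos hl, if_pos hl] at hij
  exact hL.inj (Sum.inl.inj (Sum.inl.inj hij))

/-- the last half level of the cut system -/
lemma lst_spl (hL : Lst S a φ zc s) :
    Lst (spl S N) (asp S N a) φ (fun i => Sum.inl (Sum.inr (zc i))) (rh * s) where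
  N0 := hL.N0
  s0 := by
    have h := rh_sq
    have h0 := rh_nonneg
    have h1 : 0 < rh := lt_of_le_of_ne h0 (by
      intro h2
      rw [← h2] at h
      norm_num at h)
    exact mul_pos h1 hL.s0
  norm := hL.norm
  inj := fun i j hij => hL.inj (Sum.inr.inj (Sum.inl.inj hij))
  lev := fun i => rfl
  a := by
    intro i x
    show (if S.lev (zc i) < S.K then 0 else rh) * a x (zc i) = _
    rw [hL.lev, if_neg (lt_irrefl _), hL.a]
    ring

variable {κ : ℝ}

/-- the increment of the free energy of the cut system -/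
lemma incr_spl (hS : S.Reg) (hK : 1 ≤ S.K) (hκ : 0 ≤ κ) (h2 : (1 + κ) * S.m S.K ≤ 1) {A : ℝ}
    (hA : ∀ z, S.m 1 * ((wm S (dm S κ)).lg 0 z - S.lg 0 z) ≤ A) (z : Ind S N → ℝ) :
    (spl S N).m 1 * ((wm (spl S N) (dm (spl S N) κ)).lg 0 z - (spl S N).lg 0 z) ≤ A := by
  have hmK : 0 < S.m S.K := hS.m_pos hK (Nat.le_succ _)
  have hreg' := spl_reg (N := N) hS hK
  have hreg2 := dm_reg hS hK hκ h2
  have e1 : (spl S N).m 1 = S.m 1 := if_pos hK
  have e0 : gs S 0 = 0 := if_pos (by omega)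
  have e2 : (spl S N).lg 0 z = S.lg 0 (pj S N z) := by
    have := (pb_spl (N := N) hS hK).lg hS hreg' 0 (Nat.zero_le _) z
    rwa [e0] at this
  have hlast : (spl S N).m (spl S N).K = S.m S.K := by
    show (if S.K + 1 ≤ S.K then S.m (S.K + 1) else S.m (S.K + 1 - 1)) = S.m S.K
    rw [if_neg (by omega)]
    rfl
  have hreg3 : (wm (spl S N) (dm (spl S N) κ)).Reg :=
    dm_reg hreg' (Nat.le_add_left 1 _) hκ (by rw [hlast]; exact h2)
  have hreg4 : (spl (wm S (dm S κ)) N).Reg := spl_reg (S := wm S (dm S κ)) hreg2 hK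
  have e3 : (spl (wm S (dm S κ)) N).lg 0 z = (wm S (dm S κ)).lg 0 (pj S N z) := by
    have h3 := (pb_spl (S := wm S (dm S κ)) (N := N) hreg2 hK).lg hreg2 hreg4 0 (Nat.zero_le _) z
    have e0' : gs (wm S (dm S κ)) 0 = 0 := if_pos (show 0 < S.K by omega)
    rw [e0'] at h3
    exact h3
  have h4 : (wm (spl S N) (dm (spl S N) κ)).lg 0 z ≤ (spl (wm S (dm S κ)) N).lg 0 z := by
    have h5 := lg_mono_m (S := wm (spl S N) (dm (spl S N) κ))
      (m' := fun j => if j ≤ S.K then dm S κ j else dm S κ (j - 1)) hreg3 hreg4 (by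
        intro j hj1 hj2
        have hj2' : j ≤ S.K + 1 := hj2
        show dm (spl S N) κ j ≤ (if j ≤ S.K then dm S κ j else dm S κ (j - 1))
        have hd : dm (spl S N) κ j = if j = S.K + 1 then (1 + κ) * S.m S.K else
            (if j ≤ S.K then S.m j else S.m (j - 1)) := by
          unfold dm
          rw [hlast]
          rfl
        rw [hd]
        by_cases h6 : j = S.K + 1
        · rw [if_pos h6, if_neg (by omega), h6]
          unfold dm
          rw [if_pos (by omega)]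
        · rw [if_neg h6, if_pos (by omega), if_pos (by omega)]
          unfold dm
          split_ifs with h7
          · rw [h7]
            have := mul_nonneg hκ hmK.le
            linarith
          · exact le_rfl) 0 (Nat.zero_le _) z
    exact h5
  rw [e1, e2]
  refine le_trans ?_ (hA (pj S N z))
  refine mul_le_mul_of_nonneg_left ?_ hS.pos.le
  rw [e3] at h4
  linarith

/-- **THE FOURTH MOMENT**, for replicas which split at the level `K - 1`. -/
theorem pair_sq_last (h : LinS S a c) (hK : 1 ≤ S.K) (hκ : 0 < κ) (hκ1 : κ ≤ 1)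
    (h2 : (1 + κ) * S.m S.K ≤ 1) (hL : Lst S a φ zc s) {A : ℝ} (hA1 : 1 ≤ A)
    (hA : ∀ z, S.m 1 * ((wm S (dm S κ)).lg 0 z - S.lg 0 z) ≤ A) {l : ℕ} (hl : l + 1 = S.K) :
    S.pairEx l (fun x x' => Rov φ x x' ^ 2) ≤
      270 * (A / (κ * (S.m 1 * S.m S.K * (N * s ^ 2)))) ^ 2 := by
  have hS := h.reg
  have hN' : (0 : ℝ) < N := by exact_mod_cast hL.N0
  have hs := hL.s0
  have hm1 : 0 < S.m 1 := hS.pos
  have hmK : 0 < S.m S.K := hS.m_pos hK (Nat.le_succ _)
  have hm1K : S.m 1 ≤ S.m S.K := hS.m_mono hK (Nat.le_succ _)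
  have hreg' := spl_reg (N := N) hS hK
  have hF := fld_spl h hK hL
  have hL' := lst_spl hL
  have hlin' := linS_spl (N := N) h hK
  have hlK : l < S.K := by omega
  have hlK' : l < (spl S N).K := by
    show l < S.K + 1
    omega
  have hlast : (spl S N).m (spl S N).K = S.m S.K := by
    show (if S.K + 1 ≤ S.K then S.m (S.K + 1) else S.m (S.K + 1 - 1)) = S.m S.K
    rw [if_neg (by omega)]
    rfl
  have hml : (spl S N).m (l + 1) = S.m S.K := by
    show (if l + 1 ≤ S.K then S.m (l + 1) else S.m (l + 1 - 1)) = S.m S.K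
    rw [if_pos (by omega), hl]
  have hmo : (spl S N).m 1 = S.m 1 := if_pos hK
  have hrs : (rh * s) ^ 2 = s ^ 2 / 2 := by
    rw [mul_pow, rh_sq]; ring
  obtain ⟨q, hq⟩ : ∃ q, q = κ * (S.m 1 * S.m S.K * (N * s ^ 2)) := ⟨_, rfl⟩
  have hq0 : 0 < q := by rw [hq]; positivity
  rw [← hq]
  -- the moments of `rho` in the cut system
  have hmom := fun p : ℕ => rho_moment (S := spl S N) hlin' (Nat.le_add_left 1 _) hκ
    (by rw [hlast]; exact h2) hL' hA1 (incr_spl hS hK hκ.le h2 hA) (l := l + 1)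
    (show l + 1 + 1 = S.K + 1 by omega) p
  have hk4 : 2 * A / (κ * ((spl S N).m 1 * (spl S N).m (spl S N).K * (N * (rh * s) ^ 2))) =
      4 * A / q := by
    rw [hlast, hmo, hrs, hq]
    field_simp
    ring
  have he : Real.exp 1 < 2.7182818286 := Real.exp_one_lt_d9
  have m1 : (spl S N).Ex (fun z _ => rho (spl S N) φ (l + 1) z) ≤ 11 * (A / q) := by
    have h3 := hmom 1
    rw [hk4] at h3
    simp only [pow_one, Nat.factorial_one, Nat.cast_one, mul_one] at h3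
    have h4 : 0 ≤ A / q := by positivity
    have h5 : 4 * A / q = 4 * (A / q) := by ring
    rw [h5] at h3
    nlinarith
  have m2 : (spl S N).Ex (fun z _ => rho (spl S N) φ (l + 1) z ^ 2) ≤ 87 * (A / q) ^ 2 := by
    have h3 := hmom 2
    rw [hk4] at h3
    have h4 : 0 ≤ (A / q) ^ 2 := by positivity
    have h5 : (4 * A / q) ^ 2 = 16 * (A / q) ^ 2 := by ring
    rw [h5] at h3
    simp only [Nat.factorial_two, Nat.cast_ofNat] at h3
    nlinarith
  -- the conditional bound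
  have hx : ∀ z, X4 (spl S N) φ l z ≤ 8 / (N * s ^ 2 * S.m S.K ^ 2) *
        (spl S N).T l (fun z _ => rho (spl S N) φ (l + 1) z) z +
      2 * (spl S N).T l (fun z _ => rho (spl S N) φ (l + 1) z) z ^ 2 := by
    intro z
    have h3 := X4_le hF hlK' (inj_zsp hL hl) (by
      show 0 < (if l + 1 = S.K then rh * s else 0)
      rw [if_pos hl]
      exact hL'.s0) z
    have e1 : (fun j => if j = S.K then rh * s else 0) (l + 1) = rh * s := if_pos hl
    simp only at e1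
    rw [e1, hml, hrs] at h3
    refine h3.trans (le_of_eq ?_)
    have e2 : 4 / ((N : ℝ) * (s ^ 2 / 2) * S.m S.K ^ 2) = 8 / (N * s ^ 2 * S.m S.K ^ 2) := by
      field_simp
      ring
    rw [e2]
  have er : EG (rho (spl S N) φ (l + 1)) := H784.eg_rho hreg' hlK'
  have et : EG ((spl S N).T l (fun z _ => rho (spl S N) φ (l + 1) z)) :=
    hreg'.eg_T hlK'.le (Nh.fst er)
  have h5 := hreg'.Ex_mono (Nh.fst (eg_X4 (φ := φ) hreg' hlK'.le))
    (Nh.add (Nh.fst (et.const_mul (8 / (N * s ^ 2 * S.m S.K ^ 2))))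
      (Nh.fst ((et.pow 2).const_mul 2))) fun z _ => hx z
  rw [hreg'.Ex_add (Nh.fst (et.const_mul _)) (Nh.fst ((et.pow 2).const_mul 2)),
    Ex_const_mul, Ex_const_mul, hreg'.Ex_T hlK'.le (Nh.fst er)] at h5
  have h6 : (spl S N).Ex (fun z _ =>
      (spl S N).T l (fun z _ => rho (spl S N) φ (l + 1) z) z ^ 2) ≤
      (spl S N).Ex (fun z _ => rho (spl S N) φ (l + 1) z ^ 2) := by
    rw [← hreg'.Ex_T hlK'.le (Nh.fst (er.pow 2))]
    exact hreg'.Ex_mono (Nh.fst (et.pow 2)) (Nh.fst (hreg'.eg_T hlK'.le (Nh.fst (er.pow 2))))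
      fun z _ => hreg'.sq_T_le hlK'.le (Nh.fst er) z
  -- transfer
  have e7 : (spl S N).pairEx l (fun x x' => Rov φ x x' ^ 2) =
      S.pairEx l (fun x x' => Rov φ x x' ^ 2) := by
    have h8 := (pb_spl (N := N) hS hK).pairEx hS hreg' hlK.le (fun x x' => Rov φ x x' ^ 2)
    have e8 : gs S l = l := if_pos hlK
    rwa [e8] at h8
  have e9 : (spl S N).pairEx l (fun x x' => Rov φ x x' ^ 2) =
      (spl S N).Ex (fun z _ => X4 (spl S N) φ l z) := by
    rw [hF.pairEx_Rov_sq hlK'.le, ← Ex_const_mul]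
    rfl
  rw [← e7, e9]
  have h10 : 8 / (N * s ^ 2 * S.m S.K ^ 2) ≤ 8 / q := by
    refine div_le_div_of_nonneg_left (by norm_num) hq0 ?_
    rw [hq]
    have h11 : S.m 1 * S.m S.K ≤ S.m S.K ^ 2 := by nlinarith
    have h12 := mul_le_mul_of_nonneg_right h11 (by positivity : 0 ≤ (N : ℝ) * s ^ 2)
    have h13 : κ * (S.m 1 * S.m S.K * (N * s ^ 2)) ≤ 1 * (S.m 1 * S.m S.K * (N * s ^ 2)) :=
      mul_le_mul_of_nonneg_right hκ1 (by positivity)
    linarith
  have h12 : 0 ≤ (spl S N).Ex (fun z _ => rho (spl S N) φ (l + 1) z) := by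
    have h13 := hreg'.Ex_mono (f := fun _ _ => (0 : ℝ)) (Nh.snd fun _ => 0) (Nh.fst er)
      fun z _ => (rho_bd hreg' hL.N0 hL.norm hlK' z).1
    rwa [hreg'.Ex_const] at h13
  have h14 := mul_le_mul h10 m1 h12 (by positivity)
  have h15 : 8 / q * (11 * (A / q)) ≤ 88 * (A / q) ^ 2 := by
    have e1 : 8 / q * (11 * (A / q)) = 88 * (A / q ^ 2) := by
      field_simp
      ring
    have e2 : (A / q) ^ 2 = A * (A / q ^ 2) := by
      field_simp
    rw [e1, e2]
    have : 0 ≤ A / q ^ 2 := by positivity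
    nlinarith
  have h16 : 0 ≤ (A / q) ^ 2 := by positivity
  linarith

/-- the second moment of the overlap is nondecreasing in the level -/
lemma X4_mono (hS : S.Reg) {l k : ℕ} (hlk : l ≤ k) (hk : k ≤ S.K) :
    S.Ex (fun z _ => X4 S φ l z) ≤ S.Ex (fun z _ => X4 S φ k z) := by
  have hl : l ≤ S.K := hlk.trans hk
  have hn : ∀ a b, Nh (ι := ι) (fun _ x => φ x a * φ x b) := fun a b => Nh.snd _
  rw [← hS.Ex_T (l := l) hl (Nh.fst (eg_X4 (φ := φ) hS hk))]
  refine hS.Ex_mono (Nh.fst (eg_X4 (φ := φ) hS hl))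
    (Nh.fst (hS.eg_T hl (Nh.fst (eg_X4 (φ := φ) hS hk)))) fun z _ => ?_
  have e1 : (fun (z : ι → ℝ) (_ : X) => X4 S φ k z) = fun z x => 1 / (N : ℝ) ^ 2 *
      (fun (z : ι → ℝ) (x : X) => ∑ a, (fun (z : ι → ℝ) (x : X) => ∑ b,
        (fun (z : ι → ℝ) (_ : X) => S.T k (fun _ x => φ x a * φ x b) z *
          S.T k (fun _ x => φ x a * φ x b) z) z x) z x) z x := rfl
  have hn2 : ∀ a b, Nh (X := X) (fun (z : ι → ℝ) (_ : X) => S.T k (fun _ x => φ x a * φ x b) z *
      S.T k (fun _ x => φ x a * φ x b) z) := fun a b =>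
    Nh.fst ((hS.eg_T hk (hn a b)).mul (hS.eg_T hk (hn a b)))
  rw [e1, T_const_mul, hS.T_sum hl _ fun a _ => Nh.sum _ fun b _ => hn2 a b]
  unfold X4
  refine mul_le_mul_of_nonneg_left (Finset.sum_le_sum fun a _ => ?_) (by positivity)
  rw [hS.T_sum hl _ fun b _ => hn2 a b]
  refine Finset.sum_le_sum fun b _ => ?_
  have h1 : S.T l (fun _ x => φ x a * φ x b) z =
      S.T l (fun z _ => S.T k (fun _ x => φ x a * φ x b) z) z := (hS.T_T hlk hk (hn a b) z).symm
  have h2 := hS.sq_T_le hl (Nh.fst (hS.eg_T hk (hn a b))) z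
  rw [← h1] at h2
  have e2 : (fun (z : ι → ℝ) (_ : X) => S.T k (fun _ x => φ x a * φ x b) z ^ 2) =
      fun z _ => S.T k (fun _ x => φ x a * φ x b) z * S.T k (fun _ x => φ x a * φ x b) z := by
    funext z _
    ring
  rw [e2] at h2
  rw [← sq]
  exact h2

/-- **THE FOURTH MOMENT**, for replicas which split at any level `l < K`. -/
theorem pair_sq_le (h : LinS S a c) (hK : 1 ≤ S.K) (hκ : 0 < κ) (hκ1 : κ ≤ 1)
    (h2 : (1 + κ) * S.m S.K ≤ 1) (hL : Lst S a φ zc s) {A : ℝ} (hA1 : 1 ≤ A)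
    (hA : ∀ z, S.m 1 * ((wm S (dm S κ)).lg 0 z - S.lg 0 z) ≤ A) {l : ℕ} (hl : l < S.K) :
    S.pairEx l (fun x x' => Rov φ x x' ^ 2) ≤
      270 * (A / (κ * (S.m 1 * S.m S.K * (N * s ^ 2)))) ^ 2 := by
  have hS := h.reg
  have hreg' := spl_reg (N := N) hS hK
  have hF := fld_spl h hK hL
  have h1 := pair_sq_last (l := S.K - 1) h hK hκ hκ1 h2 hL hA1 hA (by omega)
  have e7 : ∀ j, j < S.K → (spl S N).Ex (fun z _ => X4 (spl S N) φ j z) =
      S.pairEx j (fun x x' => Rov φ x x' ^ 2) := by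
    intro j hj
    have h8 := (pb_spl (N := N) hS hK).pairEx hS hreg' hj.le (fun x x' => Rov φ x x' ^ 2)
    have e8 : gs S j = j := if_pos hj
    rw [e8] at h8
    rw [← h8, hF.pairEx_Rov_sq (hj.le.trans (Nat.le_succ _)), ← Ex_const_mul]
    rfl
  rw [← e7 l hl]
  rw [← e7 (S.K - 1) (by omega)] at h1
  exact (X4_mono hreg' (by omega) (show S.K - 1 ≤ S.K + 1 by omega)).trans h1

end Vale.Agent.P146.H66
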