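import Vale.Agent.P146.H784.Dbl
import Vale.Agent.P146.H425.SyLg

/-!
# P146 (helper66): pull-back of a layered system under a level-compatible Gaussian map

`PB S S' π g`: the energy of `S'` at `z` is the energy of `S` at `π z`, the averages over the levels
larger than `g l` of functions of `π z` are the averages over the levels larger than `l`, and the
exponents of the levels `g l + 1, …, g (l + 1)` of `S'` are all equal to the exponent `l + 1` of `S`.
Then all log-weights, densities and tilted averages correspond to each other.  This is used to cut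
a level in two levels with the same exponent (`spl`).
-/

open MeasureTheory ProbabilityTheory

namespace Vale.Agent.P146.H66

open Vale.Agent.P157 Vale.Agent.P157.Lv Vale.Agent.P157.Lv.Sy
open Vale.Agent.P146.H784 Vale.Agent.P146.H425

set_option linter.unusedSectionVars false
set_option linter.unusedVariables false

section general

variable {ι X : Type} [Fintype ι] [Fintype X] [Nonempty X] {S : Sy ι X}

/-- several levels with the same exponent are one level: the log-weights -/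
lemma J_exp_const (hS : S.Reg) {μ : ℝ} {a b : ℕ} (hab : a ≤ b) (hb : b ≤ S.K)
    (hm : ∀ j, a ≤ j → j < b → S.m (j + 1) = μ) (z : ι → ℝ) :
    J S.lev a (fun z => Real.exp (μ * S.lg b z)) z = Real.exp (μ * S.lg a z) := by
  induction b, hab using Nat.le_induction generalizing z with
  | base =>
    exact Dep.J_eq (h := fun z => Real.exp (μ * S.lg a z))
      (lc_dep_comp (hS.dep_lg hb) fun t => Real.exp (μ * t)) z
  | succ b hab ih =>
    have e1 : ∀ z, J S.lev b (fun z => Real.exp (μ * S.lg (b + 1) z)) z =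
        Real.exp (μ * S.lg b z) := by
      intro z
      have h := hS.J_exp_lg (l := b) (by omega) z
      rw [hm b hab (Nat.lt_succ_self b)] at h
      exact h
    have heg := (hS.lip_lg hb).exp_eg μ
    rw [← J_J hab heg z, show J S.lev b (fun z => Real.exp (μ * S.lg (b + 1) z)) =
      fun z => Real.exp (μ * S.lg b z) from funext e1]
    exact ih (by omega) (fun j h1 h2 => hm j h1 (by omega)) z

/-- several levels with the same exponent are one level: the densities -/
lemma dn_const (S : Sy ι X) {μ : ℝ} {a b : ℕ} (hab : a ≤ b) (hb : b ≤ S.K)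
    (hm : ∀ j, a ≤ j → j < b → S.m (j + 1) = μ) (z : ι → ℝ) :
    S.dn a z = Real.exp (μ * (S.lg b z - S.lg a z)) * S.dn b z := by
  unfold dn
  rw [← Real.exp_add, ← Finset.sum_Ico_consecutive _ hab hb]
  congr 2
  have e : ∑ i ∈ Finset.Ico a b, S.m (i + 1) * (S.lg (i + 1) z - S.lg i z) =
      ∑ i ∈ Finset.Ico a b, μ * (S.lg (i + 1) z - S.lg i z) :=
    Finset.sum_congr rfl fun i hi => by
      rw [Finset.mem_Ico] at hi
      rw [hm i hi.1 hi.2]
  rw [e, ← Finset.mul_sum]
  congr 1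
  exact Finset.sum_Ico_sub (fun i => S.lg i z) hab

end general

variable {ι ι' X : Type} [Fintype ι] [Fintype ι'] [Fintype X] [Nonempty X]

/-- `S'` is the pull-back of `S` -/
structure PB (S : Sy ι X) (S' : Sy ι' X) (π : (ι' → ℝ) → (ι → ℝ)) (g : ℕ → ℕ) : Prop where
  gK : g S.K = S'.K
  g0 : g 0 = 0
  mono : ∀ l < S.K, g l ≤ g (l + 1)
  gle : ∀ l ≤ S.K, g l ≤ S'.K
  m : ∀ l < S.K, ∀ j, g l ≤ j → j < g (l + 1) → S'.m (j + 1) = S.m (l + 1)
  H : ∀ z x, S'.H z x = S.H (π z) x
  eg : ∀ h : (ι → ℝ) → ℝ, EG h → EG fun z => h (π z)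
  int : ∀ h : (ι → ℝ) → ℝ, EG h → ∫ z, h (π z) ∂(gI ι') = ∫ z, h z ∂(gI ι)
  J : ∀ l ≤ S.K, ∀ h : (ι → ℝ) → ℝ, EG h → ∀ z,
    Lv.J S'.lev (g l) (fun z => h (π z)) z = Lv.J S.lev l h (π z)

namespace PB

variable {S : Sy ι X} {S' : Sy ι' X} {π : (ι' → ℝ) → (ι → ℝ)} {g : ℕ → ℕ}

lemma top (h : PB S S' π g) (z : ι' → ℝ) : S'.top z = S.top (π z) := by
  unfold Sy.top
  simp only [h.H]

lemma gb (h : PB S S' π g) (z : ι' → ℝ) (x : X) : S'.gb z x = S.gb (π z) x := by
  unfold Sy.gb
  simp only [h.H]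

lemma av (h : PB S S' π g) (f : (ι → ℝ) → X → ℝ) (z : ι' → ℝ) :
    S'.av (fun z x => f (π z) x) z = S.av f (π z) := by
  unfold Sy.av
  simp only [h.gb]

lemma lg (h : PB S S' π g) (hS : S.Reg) (hS' : S'.Reg) : ∀ l ≤ S.K, ∀ z,
    S'.lg (g l) z = S.lg l (π z) := by
  refine down_ind (P := fun l => ∀ z, S'.lg (g l) z = S.lg l (π z)) ?_ ?_
  · intro z
    rw [h.gK, lg_top, lg_top, h.top]
  · intro l hl ih z
    have hm : 0 < S.m (l + 1) := hS.m_pos (by omega) (by omega)
    have e1 := J_exp_const hS' (h.mono l hl) (h.gle (l + 1) hl) (h.m l hl) z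
    have e2 : (fun z => Real.exp (S.m (l + 1) * S'.lg (g (l + 1)) z)) =
        fun z => (fun z => Real.exp (S.m (l + 1) * S.lg (l + 1) z)) (π z) := by
      funext z
      simp only [ih z]
    rw [e2, h.J l hl.le _ ((hS.lip_lg hl).exp_eg _) z, hS.J_exp_lg hl] at e1
    have e3 := Real.exp_injective e1
    exact (mul_left_cancel₀ hm.ne' e3).symm

lemma dn (h : PB S S' π g) (hS : S.Reg) (hS' : S'.Reg) : ∀ l ≤ S.K, ∀ z,
    S'.dn (g l) z = S.dn l (π z) := by
  refine down_ind (P := fun l => ∀ z, S'.dn (g l) z = S.dn l (π z)) ?_ ?_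
  · intro z
    rw [h.gK, dn_top, dn_top]
  · intro l hl ih z
    rw [dn_const S' (h.mono l hl) (h.gle (l + 1) hl) (h.m l hl) z, ih z,
      h.lg hS hS' l hl.le, h.lg hS hS' (l + 1) hl, dn_step S hl]

lemma T (h : PB S S' π g) (hS : S.Reg) (hS' : S'.Reg) {l : ℕ} (hl : l ≤ S.K)
    {f : (ι → ℝ) → X → ℝ} (hf : Nh f) (z : ι' → ℝ) :
    S'.T (g l) (fun z x => f (π z) x) z = S.T l f (π z) := by
  unfold Sy.T
  rw [← h.J l hl _ ((hS.eg_dn hl).mul (hS.eg_av hf)) z]
  congr 1
  funext z
  rw [h.dn hS hS' l hl, h.av f]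

lemma Ex (h : PB S S' π g) (hS : S.Reg) (hS' : S'.Reg) {f : (ι → ℝ) → X → ℝ} (hf : Nh f) :
    S'.Ex (fun z x => f (π z) x) = S.Ex f := by
  unfold Sy.Ex
  rw [← h.int _ ((hS.eg_dn (Nat.zero_le _)).mul (hS.eg_av hf))]
  congr 1
  funext z
  have := h.dn hS hS' 0 (Nat.zero_le _) z
  rw [h.g0] at this
  rw [this, h.av f]

lemma nh (h : PB S S' π g) {f : (ι → ℝ) → X → ℝ} (hf : Nh f) : Nh fun z x => f (π z) x :=
  fun x => h.eg _ (hf x)

end PB

end Vale.Agent.P146.H66
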