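import Vale.Agent.P146.H66.Pull
import Vale.Agent.P146.H425.Gauss

/-!
# P146 (helper66): the last level of a layered system cut in two halves

`spl S N`: every coordinate `z_e` of the last level `K` of `S` is replaced by
`(z_e + z'_e) / √2`, with `z_e` in the level `K` and `z'_e` in the new last level `K + 1`, both
levels with the exponent `m_K`.  (The index type has also `N` idle coordinates in every level; they
are used to apply the theory of the structure `Fld`.)
-/

open MeasureTheory ProbabilityTheory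

namespace Vale.Agent.P146.H66

open Vale.Agent.P157 Vale.Agent.P157.Lv Vale.Agent.P157.Lv.Sy
open Vale.Agent.P146.H784 Vale.Agent.P146.H425

set_option linter.unusedSectionVars false
set_option linter.unusedVariables false

section gauss

variable {ι α β : Type} [Fintype ι] [Fintype α] [Fintype β]

/-- coordinatewise rotation -/
lemma mp_rot {c s : ι → ℝ} (h : ∀ i, c i ^ 2 + s i ^ 2 = 1) :
    MeasurePreserving (fun p : (ι → ℝ) × (ι → ℝ) => fun i => c i * p.1 i + s i * p.2 i)
      ((gI ι).prod (gI ι)) (gI ι) := by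
  have h1 := MeasureTheory.measurePreserving_arrowProdEquivProdArrow ℝ ℝ ι
    (fun _ => gaussianReal 0 1) (fun _ => gaussianReal 0 1)
  have h2 : MeasurePreserving (fun q : ι → ℝ × ℝ => fun i => c i * (q i).1 + s i * (q i).2)
      (Measure.pi fun _ => (gaussianReal 0 1).prod (gaussianReal 0 1)) (gI ι) := by
    refine ⟨by fun_prop, ?_⟩
    have h3 := Measure.pi_map_pi (μ := fun _ : ι => (gaussianReal 0 1).prod (gaussianReal 0 1))
      (f := fun i (p : ℝ × ℝ) => c i * p.1 + s i * p.2)
      (by
        intro i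
        exact (by fun_prop : Measurable fun p : ℝ × ℝ => c i * p.1 + s i * p.2).aemeasurable)
    have h4 : (fun i : ι => ((gaussianReal 0 1).prod (gaussianReal 0 1)).map
        (fun p : ℝ × ℝ => c i * p.1 + s i * p.2)) = fun _ => gaussianReal 0 1 := by
      funext i
      exact map_mix_one (h i)
    rw [h4] at h3
    exact h3
  exact h2.comp (h1.symm)

/-- the first block of coordinates -/
lemma mp_inl : MeasurePreserving (fun (z : α ⊕ β → ℝ) (e : α) => z (Sum.inl e))
    (gI (α ⊕ β)) (gI α) := by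
  have h0 := measurePreserving_sumPiEquivProdPi (ι := α) (ι' := β) (X := fun _ : α ⊕ β => ℝ)
    (fun _ => gaussianReal 0 1)
  have h1 : MeasurePreserving (Prod.fst : (α → ℝ) × (β → ℝ) → (α → ℝ))
      ((gI α).prod (gI β)) (gI α) := measurePreserving_fst
  exact h1.comp h0

/-- the two blocks of coordinates -/
lemma mp_pair : MeasurePreserving (fun (z : α ⊕ β → ℝ) =>
    ((fun e : α => z (Sum.inl e)), fun e : β => z (Sum.inr e)))
    (gI (α ⊕ β)) ((gI α).prod (gI β)) :=
  measurePreserving_sumPiEquivProdPi (ι := α) (ι' := β) (X := fun _ : α ⊕ β => ℝ)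
    (fun _ => gaussianReal 0 1)

lemma mp_int {α β : Type} [Fintype α] [Fintype β] {π : (α → ℝ) → (β → ℝ)}
    (hp : MeasurePreserving π (gI α) (gI β)) {h : (β → ℝ) → ℝ} (hh : EG h) :
    ∫ z, h (π z) ∂(gI α) = ∫ z, h z ∂(gI β) := by
  conv_rhs => rw [← hp.map_eq]
  rw [integral_map hp.measurable.aemeasurable]
  exact hh.meas.aestronglyMeasurable

end gauss

/-- `√(1/2)` -/
noncomputable def rh : ℝ := √(1 / 2)

lemma rh_nonneg : 0 ≤ rh := Real.sqrt_nonneg _

lemma rh_sq : rh ^ 2 = 1 / 2 := Real.sq_sqrt (by norm_num)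

lemma rh_le : rh ≤ 1 := by
  have h := rh_sq
  have h0 := rh_nonneg
  nlinarith

variable {ι X : Type} [Fintype ι] [Fintype X] [Nonempty X]

/-- the index type of the cut system -/
abbrev Ind (S : Sy ι X) (N : ℕ) : Type := (ι ⊕ ι) ⊕ (Fin (S.K + 2) × Fin N)

/-- the map of the coordinates -/
noncomputable def pj (S : Sy ι X) (N : ℕ) (z : Ind S N → ℝ) : ι → ℝ := fun e =>
  (if S.lev e < S.K then 1 else rh) * z (Sum.inl (Sum.inl e)) +
    (if S.lev e < S.K then 0 else rh) * z (Sum.inl (Sum.inr e))

/-- the system with the last level cut in two halves -/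
noncomputable def spl (S : Sy ι X) (N : ℕ) : Sy (Ind S N) X where
  lev := Sum.elim (Sum.elim S.lev fun _ => S.K + 1) fun p => p.1
  K := S.K + 1
  m := fun j => if j ≤ S.K then S.m j else S.m (j - 1)
  H := fun z x => S.H (pj S N z) x

/-- the correspondence of the levels -/
def gs (S : Sy ι X) (l : ℕ) : ℕ := if l < S.K then l else l + 1

variable {S : Sy ι X} {N : ℕ}

lemma mp_pj : MeasurePreserving (pj S N) (gI (Ind S N)) (gI ι) := by
  have h1 := mp_rot (ι := ι) (c := fun e => if S.lev e < S.K then 1 else rh)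
    (s := fun e => if S.lev e < S.K then 0 else rh) (by
      intro e
      split_ifs
      · norm_num
      · rw [rh_sq]; norm_num)
  exact (h1.comp (mp_pair (α := ι) (β := ι))).comp
    (mp_inl (α := ι ⊕ ι) (β := Fin (S.K + 2) × Fin N))

lemma meas_pj : Measurable (pj S N) := mp_pj.measurable

lemma pj_sub (z y : Ind S N → ℝ) : pj S N z - pj S N y = pj S N (z - y) := by
  funext e
  simp only [pj, Pi.sub_apply]
  ring

lemma norm_pj (z : Ind S N → ℝ) : ‖pj S N z‖ ≤ 2 * ‖z‖ := by
  refine (pi_norm_le_iff_of_nonneg (by positivity)).2 fun e => ?_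
  have h1 : |z (Sum.inl (Sum.inl e))| ≤ ‖z‖ := norm_le_pi_norm z _
  have h2 : |z (Sum.inl (Sum.inr e))| ≤ ‖z‖ := norm_le_pi_norm z _
  have h3 := rh_nonneg
  have h4 := rh_le
  have h5 := norm_nonneg z
  rw [Real.norm_eq_abs]
  unfold pj
  split_ifs
  · rw [one_mul, zero_mul, add_zero]
    linarith
  · refine (abs_add_le _ _).trans ?_
    rw [abs_mul, abs_mul, abs_of_nonneg h3]
    nlinarith [mul_le_mul h4 h1 (abs_nonneg _) (by norm_num : (0 : ℝ) ≤ 1),
      mul_le_mul h4 h2 (abs_nonneg _) (by norm_num : (0 : ℝ) ≤ 1)]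

lemma eg_pj {h : (ι → ℝ) → ℝ} (hh : EG h) : EG fun z : Ind S N → ℝ => h (pj S N z) := by
  obtain ⟨C, a, hC, ha, hb⟩ := hh.bdd
  refine ⟨hh.meas.comp meas_pj, C, a * 2, hC, by positivity, fun z => (hb _).trans ?_⟩
  refine mul_le_mul_of_nonneg_left (Real.exp_le_exp.2 ?_) hC
  rw [mul_assoc]
  exact mul_le_mul_of_nonneg_left (norm_pj z) ha

lemma lip_pj {h : (ι → ℝ) → ℝ} (hh : Lip h) : Lip fun z : Ind S N → ℝ => h (pj S N z) := by
  obtain ⟨L, hL, hb⟩ := hh
  refine ⟨L * 2, by positivity, fun z y => (hb _ _).trans ?_⟩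
  rw [pj_sub, mul_assoc]
  exact mul_le_mul_of_nonneg_left (norm_pj _) hL

lemma spl_reg (hS : S.Reg) (hK : 1 ≤ S.K) : (spl S N).Reg where
  m0 := by
    show (if 0 ≤ S.K then S.m 0 else S.m (0 - 1)) = 0
    rw [if_pos (Nat.zero_le _)]
    exact hS.m0
  mK := by
    show (if S.K + 1 + 1 ≤ S.K then S.m (S.K + 1 + 1) else S.m (S.K + 1 + 1 - 1)) = 1
    rw [if_neg (by omega)]
    exact hS.mK
  mono := by
    intro l hl
    have hl' : l ≤ S.K + 1 := hl
    show (if l ≤ S.K then S.m l else S.m (l - 1)) ≤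
      (if l + 1 ≤ S.K then S.m (l + 1) else S.m (l + 1 - 1))
    by_cases h1 : l ≤ S.K
    · by_cases h2 : l + 1 ≤ S.K
      · rw [if_pos h1, if_pos h2]
        exact hS.mono l h1
      · rw [if_pos h1, if_neg h2]
        exact le_of_eq (by congr 1)
    · have h3 : l = S.K + 1 := by omega
      subst h3
      rw [if_neg h1, if_neg (by omega)]
      have : S.m (S.K + 1 - 1) = S.m S.K := by congr 1
      rw [this]
      exact hS.mono S.K le_rfl
  pos := by
    show 0 < (if 1 ≤ S.K then S.m 1 else S.m (1 - 1))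
    rw [if_pos hK]
    exact hS.pos
  lev := by
    rintro ((e | e) | p)
    · exact (hS.lev e).trans (Nat.le_succ _)
    · exact le_rfl
    · show (p.1 : ℕ) ≤ S.K + 1
      have := p.1.2
      omega
  lip := fun x => lip_pj (hS.lip x)

lemma mix_pj {l : ℕ} (hl : l < S.K) (z w : Ind S N → ℝ) :
    pj S N (mix (spl S N).lev l z w) = mix S.lev l (pj S N z) (pj S N w) := by
  funext e
  have e1 : mix (spl S N).lev l z w (Sum.inl (Sum.inl e)) =
      if S.lev e ≤ l then z (Sum.inl (Sum.inl e)) else w (Sum.inl (Sum.inl e)) := rfl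
  have e2 : mix (spl S N).lev l z w (Sum.inl (Sum.inr e)) =
      if S.K + 1 ≤ l then z (Sum.inl (Sum.inr e)) else w (Sum.inl (Sum.inr e)) := rfl
  have e3 : mix S.lev l (pj S N z) (pj S N w) e =
      if S.lev e ≤ l then pj S N z e else pj S N w e := rfl
  rw [e3]
  unfold pj
  rw [e1, e2, if_neg (show ¬ S.K + 1 ≤ l by omega)]
  by_cases h : S.lev e ≤ l
  · have h' : S.lev e < S.K := by omega
    simp only [if_pos h, if_pos h', zero_mul, add_zero]
  · simp only [if_neg h]

/-- the cut system is a pull-back -/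
theorem pb_spl (hS : S.Reg) (hK : 1 ≤ S.K) : PB S (spl S N) (pj S N) (gs S) where
  gK := by
    show (if S.K < S.K then S.K else S.K + 1) = S.K + 1
    rw [if_neg (lt_irrefl _)]
  g0 := by
    show (if 0 < S.K then 0 else 0 + 1) = 0
    rw [if_pos (by omega)]
  mono := by
    intro l hl
    unfold gs
    split_ifs <;> omega
  gle := by
    intro l hl
    show (if l < S.K then l else l + 1) ≤ S.K + 1
    split_ifs <;> omega
  m := by
    intro l hl j h1 h2
    have h1' : (if l < S.K then l else l + 1) ≤ j := h1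
    have h2' : j < (if l + 1 < S.K then l + 1 else l + 1 + 1) := h2
    rw [if_pos hl] at h1'
    show (if j + 1 ≤ S.K then S.m (j + 1) else S.m (j + 1 - 1)) = S.m (l + 1)
    by_cases h3 : l + 1 < S.K
    · rw [if_pos h3] at h2'
      have : j = l := by omega
      subst this
      rw [if_pos (by omega)]
    · rw [if_neg h3] at h2'
      by_cases h4 : j = l
      · subst h4
        rw [if_pos (by omega)]
      · have : j = l + 1 := by omega
        subst this
        rw [if_neg (by omega)]
        congr 1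
  H := fun z x => rfl
  eg := fun h hh => eg_pj hh
  int := fun h hh => mp_int mp_pj hh
  J := by
    intro l hl h hh z
    rcases Nat.lt_or_ge l S.K with h1 | h1
    · have e : gs S l = l := if_pos h1
      rw [e]
      unfold Lv.J
      simp only [mix_pj h1]
      exact mp_int mp_pj (H425.eg_mixr hh S.lev l (pj S N z))
    · have h2 : l = S.K := le_antisymm hl h1
      subst h2
      have e : gs S S.K = S.K + 1 := if_neg (lt_irrefl _)
      rw [e]
      unfold Lv.J
      have hlev : ∀ e, (spl S N).lev e ≤ S.K + 1 := (spl_reg (N := N) hS hK).lev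
      simp only [mix_top hlev, mix_top hS.lev, integral_const, probReal_univ, one_smul]

end Vale.Agent.P146.H66
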